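import Vale.Agent.P064.Chunk

/-! Linear forms of the margin and of the hypothesis, and cores of clusters, for sparse hosts. -/

set_option linter.unusedSectionVars false

namespace Vale.Agent.P064.Sparse

open Finset

variable {α V : Type*} [Fintype α] [DecidableEq α] [Fintype V] [DecidableEq V]
variable {C : Setup α V}

/-- The logarithm of the number of vertices. -/
noncomputable def ll (C : Setup α V) : ℝ := Real.log C.n

/-- One plus the logarithm of the average degree `n q`. -/
noncomputable def mm (C : Setup α V) : ℝ := 1 + Real.log ((C.n : ℝ) * C.q)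

/-- The sparse regime: the average degree is at least `log n` and much less than `n`. -/
structure Range (C : Setup α V) : Prop where
  low : ll C ≤ (C.n : ℝ) * C.q
  high : 4 * mm C ≤ ll C

/-- The number of edges of `E` at a vertex. -/
def dg (E : Finset (Sym2 V)) (z : V) : ℕ := (E.filter fun e => z ∈ e).card

lemma cpos (h : C.Hyp) : 0 < (C.n : ℝ) * C.q :=
  mul_pos (lt_of_lt_of_le one_pos h.n1) h.q0

lemma range_facts (h : C.Hyp) (hR : Range C) :
    1 ≤ mm C ∧ 4 ≤ ll C ∧ 4 ≤ (C.n : ℝ) * C.q := by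
  have hl2 : Real.log 2 ≤ ll C := Real.log_le_log two_pos (by exact_mod_cast h.nn)
  have hlp : 0 < ll C := lt_of_lt_of_le (Real.log_pos one_lt_two) hl2
  have hm : 1 + Real.log (ll C) ≤ mm C := by
    have := Real.log_le_log hlp hR.low
    rw [mm]; linarith
  have h1 : 1 ≤ ll C := by
    by_contra hc
    have hlow : Real.log (ll C) ≥ Real.log (Real.log 2) :=
      Real.log_le_log (Real.log_pos one_lt_two) hl2
    have h69 := Real.log_two_gt_d9
    have : 1 - 1 / Real.log 2 ≤ Real.log (Real.log 2) := by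
      have := Real.one_sub_inv_le_log_of_pos (Real.log_pos one_lt_two)
      rwa [one_div]
    have : 1 / Real.log 2 ≤ 1.5 := by
      rw [div_le_iff₀ (Real.log_pos one_lt_two)]; linarith
    linarith [hR.high, not_le.1 hc]
  have h2 : 1 ≤ mm C := by linarith [Real.log_nonneg h1]
  exact ⟨h2, by linarith [hR.high], le_trans (by linarith [hR.high]) hR.low⟩

lemma log_eq (h : C.Hyp) : Real.log (Real.exp 1 * C.q) = mm C - ll C := by
  have hn0 : (0 : ℝ) < C.n := lt_of_lt_of_le one_pos h.n1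
  rw [Real.log_mul (Real.exp_pos 1).ne' h.q0.ne', Real.log_exp, mm, ll,
    Real.log_mul hn0.ne' h.q0.ne']
  ring

lemma ec_gt (h : C.Hyp) (hR : Range C) : 1 < (C.n : ℝ) * (Real.exp 1 * C.q) := by
  have h4 := (range_facts h hR).2.2
  have := Real.add_one_le_exp (1 : ℝ)
  nlinarith

/-- The margin in linear form. -/
lemma margin_lin (h : C.Hyp) {a b : ℕ} (hm : (C.n : ℝ) ^ a * (Real.exp 1 * C.q) ^ b ≤ 1) :
    (a : ℝ) * ll C + b * (mm C - ll C) ≤ 0 := by
  have hn0 : (0 : ℝ) < C.n := lt_of_lt_of_le one_pos h.n1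
  have hx : 0 < Real.exp 1 * C.q := mul_pos (Real.exp_pos 1) h.q0
  have := Real.log_nonpos (mul_pos (pow_pos hn0 _) (pow_pos hx _)).le hm
  rw [Real.log_mul (pow_pos hn0 _).ne' (pow_pos hx _).ne', Real.log_pow, Real.log_pow,
    log_eq h] at this
  exact this

/-- No subgraph of the host has too many edges. -/
lemma hyp_lin (h : C.Hyp) (A : Finset V) (E : Finset (Sym2 V)) (hE : E ⊆ C.EH)
    (hA : ∀ e ∈ E, ∀ a ∈ e, a ∈ A) :
    ((E.card : ℝ) - A.card) * ll C ≤ (E.card : ℝ) * (mm C - 1) + Real.log 2 := by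
  have hone := h.hyp A E hE hA {1}
    (fun σ hσ => by rw [mem_singleton] at hσ; subst hσ; simp)
    (fun σ hσ τ hτ _ => by rw [mem_singleton.1 hσ, mem_singleton.1 hτ])
  simp only [card_singleton, Nat.cast_one] at hone
  have hn0 : (0 : ℝ) < C.n := lt_of_lt_of_le one_pos h.n1
  have hl := Real.log_nonneg hone
  rw [Real.log_mul (mul_pos two_pos (pow_pos hn0 _)).ne' (pow_pos h.q0 _).ne',
    Real.log_mul two_ne_zero (pow_pos hn0 _).ne', Real.log_pow, Real.log_pow] at hl
  have e := log_eq h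
  rw [Real.log_mul (Real.exp_pos 1).ne' h.q0.ne', Real.log_exp] at e
  have e' : Real.log C.q = mm C - ll C - 1 := by linarith
  rw [e'] at hl
  change 0 ≤ Real.log 2 + (A.card : ℝ) * ll C + _ at hl
  linarith

lemma deg_two (h : C.Hyp) (hc : 1 < (C.n : ℝ) * (Real.exp 1 * C.q)) {W P T : Finset α}
    (hm : C.Margin W T) (hWP : W ⊂ P) (hPT : P ⊆ T) {a : α} (ha : a ∈ T \ P) :
    2 ≤ C.deg P T a := by
  obtain ⟨haT, haP⟩ := mem_sdiff.1 ha
  have hsub : P ⊆ T.erase a := subset_erase.2 ⟨hPT, haP⟩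
  have hmar := hm (T.erase a) (hWP.trans_subset hsub) (erase_subset a T)
  have h1 : (T \ T.erase a).card = 1 := by
    rw [sdiff_erase haT, sdiff_self]
    simp
  rw [h1, pow_one] at hmar
  have hle : (C.new (T.erase a) T).card ≤ C.deg P T a := by
    refine card_le_card fun e he => mem_filter.2 ⟨Setup.new_anti hsub he, ?_⟩
    obtain ⟨heT, b, hb, hbe⟩ := Setup.mem_new.1 he
    have hbT := (Setup.mem_D.1 heT).2 b hb
    have : b = a := by
      by_contra hba
      exact hbe (mem_erase.2 ⟨hba, hbT⟩)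
    exact this ▸ hb
  by_contra hlt
  have hx0 : 0 < Real.exp 1 * C.q := mul_pos (Real.exp_pos 1) h.q0
  have : (Real.exp 1 * C.q) ^ 1 ≤ (Real.exp 1 * C.q) ^ (C.new (T.erase a) T).card :=
    pow_le_pow_of_le_one hx0.le h.qe (by omega)
  rw [pow_one] at this
  have hn0 : (0 : ℝ) ≤ C.n := Nat.cast_nonneg _
  nlinarith [mul_le_mul_of_nonneg_left this hn0]

/-- Twice the number of free vertices plus the roots is at most twice the edges. -/
lemma roots_le (h : C.Hyp) (hc : 1 < (C.n : ℝ) * (Real.exp 1 * C.q)) {W P T : Finset α}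
    (hm : C.Margin W T) (hWP : W ⊂ P) (hPT : P ⊆ T) :
    2 * (T \ P).card + (C.roots P T).card ≤ 2 * (C.new P T).card := by
  refine le_trans ?_ (Setup.sum_deg_le (C := C) (W := P) (T := T) ((T \ P) ∪ C.roots P T))
  have hdis : Disjoint (T \ P) (C.roots P T) :=
    disjoint_left.2 fun a ha hr => (mem_sdiff.1 ha).2 (mem_filter.1 hr).1
  rw [sum_union hdis]
  refine add_le_add ?_ ?_
  · rw [mul_comm, ← smul_eq_mul]
    exact card_nsmul_le_sum _ _ _ fun a ha => deg_two h hc hm hWP hPT ha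
  · rw [card_eq_sum_ones]
    refine sum_le_sum fun a ha => ?_
    obtain ⟨-, e, he, hae⟩ := mem_filter.1 ha
    exact card_pos.2 ⟨e, mem_filter.2 ⟨he, hae⟩⟩

lemma sum_dg_le (E : Finset (Sym2 V)) (S : Finset V) : ∑ z ∈ S, dg E z ≤ 2 * E.card := by
  simp only [dg, card_filter]
  rw [sum_comm, mul_comm, ← smul_eq_mul]
  refine sum_le_card_nsmul _ _ _ fun e _ => ?_
  rw [← card_filter]
  refine le_trans (card_le_card (t := e.toFinset) fun a ha => ?_) ?_
  · exact Sym2.mem_toFinset.2 (mem_filter.1 ha).2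
  · rw [Sym2.card_toFinset]; split_ifs <;> omega

end Vale.Agent.P064.Sparse
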