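import Vale.Agent.P064.Sparse.Cluster

/-! The core of the extensions that send a set of marks to given places. -/

set_option linter.unusedSectionVars false

namespace Vale.Agent.P064.Sparse

open Finset

variable {α V : Type*} [Fintype α] [DecidableEq α] [Fintype V] [DecidableEq V]
variable {C : Setup α V}

/-- The cluster spanned by short pieces over marked vertices. -/
theorem local_cluster (h : C.Hyp) (hR : Range C) {W P T : Finset α} (hm : C.Margin W T)
    (hWP : W ⊂ P) (hPT : P ⊆ T) {φ : α → V} (Q : Finset α) (Z : Finset V) (pc : α → Finset α)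
    {L : ℕ} (hL : 1 ≤ L) (hLM : 4 * (L : ℝ) * mm C ≤ ll C)
    (hpc : ∀ a ∈ T \ P, a ∉ Q → a ∈ pc a ∧ pc a ⊆ T \ P
      ∧ (C.new (T \ pc a) T).card ≤ 2 * L
      ∧ ∀ e ∈ C.new (T \ pc a) T, ∀ b ∈ e, b ∈ P ∨ b ∈ Q ∨ b ∈ pc a)
    (Γ : Finset (α → V)) (hΓ : Γ ⊆ C.ext P T φ)
    (hZ : ∀ g ∈ Γ, ∀ a ∈ Q, g a ∈ Z) :
    ∃ E : Finset (Sym2 V), E ⊆ C.EH ∧ (∀ g ∈ Γ, ∀ e ∈ C.new P T, e.map g ∈ E)
      ∧ (E.card : ℝ) * mm C ≤ 1 + ((C.roots P T).card + Z.card) * ll C := by
  classical
  set base := (C.roots P T).image φ ∪ Z with hbase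
  set good := fun U : Finset V × Finset (Sym2 V) => U.2 ⊆ C.EH ∧ base ⊆ U.1
    ∧ (∀ e ∈ U.2, ∀ a ∈ e, a ∈ U.1)
    ∧ U.2.card + 2 * L * U.1.card ≤ 2 * L * (U.2.card + base.card) with hgood
  obtain ⟨⟨A, E⟩, hU, hmax⟩ := exists_max_image (univ.filter good) (fun U => U.2.card)
    ⟨(base, ∅), mem_filter.2 ⟨mem_univ _, empty_subset _, subset_rfl, by simp, by simp⟩⟩
  obtain ⟨-, hEH, hbA, hEA, hsur⟩ := mem_filter.1 hU
  simp only at hEH hbA hEA hsur hmax
  refine ⟨E, hEH, fun g hg e he => ?_, ?_⟩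
  · by_contra heE
    obtain ⟨hgT, hgP⟩ := Setup.mem_ext.1 (hΓ hg)
    have heA : ∀ a ∈ e, a ∈ P ∨ a ∈ Q → g a ∈ A := by
      rintro a ha (haP | haQ)
      · rw [hgP a haP]
        exact hbA (mem_union_left _ (mem_image_of_mem _ (mem_filter.2 ⟨haP, e, he, ha⟩)))
      · exact hbA (mem_union_right _ (hZ g hg a haQ))
    have heT := (Setup.mem_D.1 (Setup.mem_new.1 he).1).2
    by_cases hfree : ∃ a ∈ e, a ∉ P ∧ a ∉ Q
    · obtain ⟨a, hae, haP, haQ⟩ := hfree
      obtain ⟨haK, hKsub, hKcard, hKends⟩ := hpc a (mem_sdiff.2 ⟨heT a hae, haP⟩) haQ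
      set K := pc a with hK
      have hPK : P ⊆ T \ K := fun b hb => mem_sdiff.2 ⟨hPT hb, fun h' => (mem_sdiff.1 (hKsub h')).2 hb⟩
      have heK : e ∈ C.new (T \ K) T :=
        Setup.mem_new.2 ⟨(Setup.mem_new.1 he).1, a, hae, fun h' => (mem_sdiff.1 h').2 haK⟩
      set S := K.filter fun b => g b ∈ A with hS
      set P' := (T \ K) ∪ S with hP'
      have hKT : K ⊆ T := hKsub.trans sdiff_subset
      have hP'T : P' ⊆ T := union_subset sdiff_subset ((filter_subset _ _).trans hKT)
      have hTP' : T \ P' = K \ S := by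
        ext b
        simp only [hP', mem_sdiff, mem_union, not_or, not_and, not_not]
        exact ⟨fun h => ⟨h.2.1 h.1, h.2.2⟩, fun h => ⟨hKT h.1, fun _ => h.1, h.2⟩⟩
      set N := K \ S with hN
      set A' := A ∪ N.image g with hA'
      set E' := E ∪ (C.new (T \ K) T).image (fun e => e.map g) with hE'
      have hgA : ∀ b ∈ T, b ∈ P ∨ b ∈ Q ∨ b ∈ K → (∃ e' ∈ C.new (T \ K) T, b ∈ e') →
          g b ∈ A' := by
        intro b hbT hb he'
        by_cases hbK : b ∈ K
        · by_cases hbA' : g b ∈ A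
          · exact mem_union_left _ hbA'
          · exact mem_union_right _ (mem_image_of_mem _
              (mem_sdiff.2 ⟨hbK, fun h' => hbA' (mem_filter.1 h').2⟩))
        rcases hb with hbP | hbQ | hbK'
        · obtain ⟨e', he', hbe⟩ := he'
          rw [hgP b hbP]
          exact mem_union_left _ (hbA (mem_union_left _ (mem_image_of_mem _
            (mem_filter.2 ⟨hbP, e', Setup.new_anti hPK he', hbe⟩))))
        · exact mem_union_left _ (hbA (mem_union_right _ (hZ g hg b hbQ)))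
        · exact absurd hbK' hbK
      have hends : ∀ z ∈ E', ∀ v ∈ z, v ∈ A' := by
        intro z hz v hv
        rcases mem_union.1 hz with hz | hz
        · exact mem_union_left _ (hEA z hz v hv)
        · obtain ⟨e', he', rfl⟩ := mem_image.1 hz
          obtain ⟨b, hb, rfl⟩ := Sym2.mem_map.1 hv
          exact hgA b ((Setup.mem_D.1 (Setup.mem_new.1 he').1).2 b hb) (hKends e' he' b hb)
            ⟨e', he', hb⟩
      have hlt : E.card < E'.card :=
        card_lt_card (ssubset_iff_of_subset subset_union_left |>.2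
          ⟨e.map g, mem_union_right _ (mem_image_of_mem _ heK), heE⟩)
      have hA'card : A'.card ≤ A.card + N.card :=
        (card_union_le _ _).trans (Nat.add_le_add_left card_image_le _)
      have hd : E.card + (C.new P' T).card ≤ E'.card := by
        have hinj : ((C.new P' T).image (fun e => e.map g)).card = (C.new P' T).card :=
          card_image_of_injOn fun e he e' he' => Setup.map_injOn hgT e (Setup.mem_new.1 he).1 e'
            (Setup.mem_new.1 he').1
        have hdis : Disjoint E ((C.new P' T).image (fun e => e.map g)) := by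
          rw [disjoint_right]
          intro z hz hzE
          obtain ⟨e', he', rfl⟩ := mem_image.1 hz
          obtain ⟨heT', b, hb, hbP'⟩ := Setup.mem_new.1 he'
          have hgb : g b ∈ A := hEA _ hzE _ (Sym2.mem_map.2 ⟨b, hb, rfl⟩)
          have hbK : b ∈ K := by
            by_contra hbK
            exact hbP' (mem_union_left _ (mem_sdiff.2 ⟨(Setup.mem_D.1 heT').2 b hb, hbK⟩))
          exact hbP' (mem_union_right _ (mem_filter.2 ⟨hbK, hgb⟩))
        rw [← hinj, ← card_union_of_disjoint hdis]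
        exact card_le_card (union_subset_union_right (image_subset_image
          (Setup.new_anti subset_union_left)))
      have hE'le : E'.card ≤ E.card + 2 * L :=
        (card_union_le _ _).trans (Nat.add_le_add_left (card_image_le.trans hKcard) _)
      have hNlt : E.card + N.card < E'.card := by
        rcases Nat.eq_zero_or_pos N.card with hN0 | hN0
        · omega
        suffices N.card < (C.new P' T).card by omega
        by_contra hd'
        have hmP := hm P' (hWP.trans_subset (hPK.trans subset_union_left)) hP'T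
        rw [hTP'] at hmP
        have hx0 : 0 < Real.exp 1 * C.q := mul_pos (Real.exp_pos 1) h.q0
        have hle : (Real.exp 1 * C.q) ^ N.card ≤ (Real.exp 1 * C.q) ^ (C.new P' T).card :=
          pow_le_pow_of_le_one hx0.le h.qe (not_lt.1 hd')
        have hgt : 1 < ((C.n : ℝ) * (Real.exp 1 * C.q)) ^ N.card :=
          one_lt_pow₀ (ec_gt h hR) hN0.ne'
        rw [mul_pow] at hgt
        have := mul_le_mul_of_nonneg_left hle (pow_nonneg (Nat.cast_nonneg C.n) N.card)
        linarith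
      have := hmax (A', E') (mem_filter.2 ⟨mem_univ _, union_subset hEH (fun z hz => by
          obtain ⟨e', he', rfl⟩ := mem_image.1 hz
          exact (Setup.mem_emb.1 hgT).2.2 e' (Setup.mem_new.1 he').1),
        hbA.trans subset_union_left, hends, by
          show E'.card + 2 * L * A'.card ≤ 2 * L * (E'.card + base.card)
          nlinarith [Nat.mul_le_mul_left (2 * L) hA'card,
            Nat.mul_le_mul_left (2 * L) (Nat.succ_le_of_lt hNlt)]⟩)
      simp only at this
      omega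
    · simp only [not_exists, not_and, not_not] at hfree
      have hends : ∀ a ∈ e, g a ∈ A := fun a ha => heA a ha
        (if haP : a ∈ P then Or.inl haP else Or.inr (hfree a ha haP))
      have := hmax (A, insert (e.map g) E) (mem_filter.2 ⟨mem_univ _,
        insert_subset ((Setup.mem_emb.1 hgT).2.2 e (Setup.mem_new.1 he).1) hEH, hbA,
        fun z hz v hv => by
          rcases mem_insert.1 hz with rfl | hz
          · obtain ⟨b, hb, rfl⟩ := Sym2.mem_map.1 hv
            exact hends b hb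
          · exact hEA z hz v hv,
        by
          show (insert (e.map g) E).card + 2 * L * A.card
            ≤ 2 * L * ((insert (e.map g) E).card + base.card)
          rw [card_insert_of_notMem heE]
          nlinarith⟩)
      simp only [card_insert_of_notMem heE] at this
      omega
  · obtain ⟨hM, hl4, -⟩ := range_facts h hR
    have hone := hyp_lin h A E hEH hEA
    have hl2 : Real.log 2 ≤ 1 := by linarith [Real.log_two_lt_d9]
    have hb : (base.card : ℝ) ≤ (C.roots P T).card + Z.card := by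
      exact_mod_cast (card_union_le _ _).trans (Nat.add_le_add_right card_image_le _)
    have hs : (E.card : ℝ) + 2 * L * A.card ≤ 2 * L * ((E.card : ℝ) + base.card) := by
      exact_mod_cast hsur
    set K := (2 * (L : ℝ)) with hKdef
    have hK0 : 0 ≤ K := by positivity
    have h1 := mul_le_mul_of_nonneg_right hs (show (0 : ℝ) ≤ ll C by linarith)
    have h2 := mul_le_mul_of_nonneg_left hone hK0
    have h3 := mul_le_mul_of_nonneg_left hl2 hK0
    have hKM : 2 * K * mm C ≤ ll C := by rw [hKdef]; linarith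
    have h4 := mul_le_mul_of_nonneg_right hKM (Nat.cast_nonneg (α := ℝ) E.card)
    have h5 := mul_le_mul_of_nonneg_left
      (mul_le_mul_of_nonneg_right hb (show (0 : ℝ) ≤ ll C by linarith)) hK0
    have h6 : (E.card : ℝ) * ll C ≤ 2 * K * (1 + ((C.roots P T).card + Z.card) * ll C) := by
      nlinarith [mul_nonneg hK0 (Nat.cast_nonneg (α := ℝ) E.card)]
    have h7 := mul_le_mul_of_nonneg_right h6 (show (0 : ℝ) ≤ mm C by linarith)
    have h8 := mul_le_mul_of_nonneg_right hKM
      (show (0 : ℝ) ≤ 1 + ((C.roots P T).card + Z.card) * ll C by positivity)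
    exact le_of_mul_le_mul_right (show (E.card : ℝ) * mm C * ll C
      ≤ (1 + ((C.roots P T).card + Z.card) * ll C) * ll C by linarith) (by linarith)

/-- The core spanned by extensions with given marks. -/
theorem local_core (h : C.Hyp) (hR : Range C) {W P T : Finset α} (hm : C.Margin W T)
    (hWP : W ⊂ P) (hPT : P ⊆ T) {φ : α → V} (Q : Finset α) (Z : Finset V) (pc : α → Finset α)
    {L : ℕ} (hL : 1 ≤ L) (hLM : 4 * (L : ℝ) * mm C ≤ ll C)
    (hpc : ∀ a ∈ T \ P, a ∉ Q → a ∈ pc a ∧ pc a ⊆ T \ P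
      ∧ (C.new (T \ pc a) T).card ≤ 2 * L
      ∧ ∀ e ∈ C.new (T \ pc a) T, ∀ b ∈ e, b ∈ P ∨ b ∈ Q ∨ b ∈ pc a)
    (Γ : Finset (α → V)) (hΓ : Γ ⊆ C.ext P T φ)
    (hZ : ∀ g ∈ Γ, ∀ a ∈ Q, g a ∈ Z) :
    ∃ (E : Finset (Sym2 V)) (S : Finset V),
      (∀ g ∈ Γ, ∀ e ∈ C.new P T, e.map g ∈ E) ∧ (∀ g ∈ Γ, ∀ a ∈ T \ P, g a ∈ S)
      ∧ (∀ z ∈ S, 2 ≤ dg E z)
      ∧ ∑ z ∈ S, ((dg E z : ℝ) - 2) ≤ 4 * (C.roots P T).card + 2 * Z.card + 2 := by
  classical
  obtain ⟨hM, hl4, -⟩ := range_facts h hR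
  obtain ⟨E₁, hE₁, hmem, hcard⟩ := local_cluster h hR hm hWP hPT Q Z pc hL hLM hpc Γ hΓ hZ
  set E := Γ.biUnion fun g => (C.new P T).image fun e => e.map g with hE
  have hEsub : E ⊆ E₁ := fun z hz => by
    obtain ⟨g, hg, hz⟩ := mem_biUnion.1 hz
    obtain ⟨e, he, rfl⟩ := mem_image.1 hz
    exact hmem g hg e he
  have hin : ∀ g ∈ Γ, ∀ e ∈ C.new P T, e.map g ∈ E := fun g hg e he =>
    mem_biUnion.2 ⟨g, hg, mem_image_of_mem _ he⟩
  set RI := (C.roots P T).image φ with hRI
  set S := univ.filter fun z : V => z ∉ RI ∧ ∃ e ∈ E, z ∈ e with hS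
  have hS2 : ∀ g ∈ Γ, ∀ a ∈ T \ P, 2 ≤ dg E (g a) := by
    intro g hg a ha
    refine (deg_two h (ec_gt h hR) hm hWP hPT ha).trans
      (card_le_card_of_injOn (fun e => e.map g) (fun e he => ?_) fun e he e' he' hee => ?_)
    · obtain ⟨he, hae⟩ := mem_filter.1 he
      exact mem_filter.2 ⟨hin g hg e he, Sym2.mem_map.2 ⟨a, hae, rfl⟩⟩
    · exact Setup.map_injOn (Setup.mem_ext.1 (hΓ hg)).1 e
        (Setup.mem_new.1 (mem_filter.1 he).1).1 e'
        (Setup.mem_new.1 (mem_filter.1 he').1).1 hee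
  have hS2' : ∀ z ∈ S, 2 ≤ dg E z := by
    intro z hz
    obtain ⟨-, hzR, e, he, hze⟩ := mem_filter.1 hz
    obtain ⟨g, hg, himg⟩ := mem_biUnion.1 he
    obtain ⟨e', he', rfl⟩ := mem_image.1 himg
    obtain ⟨b, hb, rfl⟩ := Sym2.mem_map.1 hze
    have hbT := (Setup.mem_D.1 (Setup.mem_new.1 he').1).2 b hb
    by_cases hbP : b ∈ P
    · refine absurd (mem_image.2 ⟨b, mem_filter.2 ⟨hbP, e', he', hb⟩, ?_⟩) hzR
      exact ((Setup.mem_ext.1 (hΓ hg)).2 b hbP).symm
    · exact hS2 g hg b (mem_sdiff.2 ⟨hbT, hbP⟩)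
  refine ⟨E, S, hin, fun g hg a ha => ?_, hS2', ?_⟩
  · obtain ⟨e, he⟩ := card_pos.1 (lt_of_lt_of_le two_pos (hS2 g hg a ha))
    refine mem_filter.2 ⟨mem_univ _, fun hr => ?_, e, (mem_filter.1 he).1, (mem_filter.1 he).2⟩
    obtain ⟨w, hw, hwa⟩ := mem_image.1 hr
    obtain ⟨hgT, hgP⟩ := Setup.mem_ext.1 (hΓ hg)
    have hwP := (mem_filter.1 hw).1
    rw [← hgP w hwP] at hwa
    exact (mem_sdiff.1 ha).2
      ((Setup.mem_emb.1 hgT).2.1 w (hPT hwP) a (mem_sdiff.1 ha).1 hwa ▸ hwP)
  · have hone := hyp_lin h (RI ∪ S) E (hEsub.trans hE₁) (fun e he a ha => by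
      by_cases haR : a ∈ RI
      · exact mem_union_left _ haR
      · exact mem_union_right _ (mem_filter.2 ⟨mem_univ a, haR, e, he, ha⟩))
    have hA : ((RI ∪ S).card : ℝ) ≤ (C.roots P T).card + S.card := by
      exact_mod_cast (card_union_le _ _).trans (Nat.add_le_add_right card_image_le _)
    have hl2 : Real.log 2 ≤ 1 := by linarith [Real.log_two_lt_d9]
    have hA' := mul_le_mul_of_nonneg_right hA (show (0 : ℝ) ≤ ll C by linarith)
    have hEM := mul_le_mul_of_nonneg_right (Nat.cast_le (α := ℝ).2 (card_le_card hEsub))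
      (show (0 : ℝ) ≤ mm C by linarith)
    have hE0 : (0 : ℝ) ≤ E.card := Nat.cast_nonneg _
    have hρ : (E.card : ℝ) - S.card ≤ 2 * (C.roots P T).card + Z.card + 1 := by
      refine le_of_mul_le_mul_right ?_ (show (0 : ℝ) < ll C by linarith)
      linarith
    rw [sum_sub_distrib, sum_const, nsmul_eq_mul, ← Nat.cast_sum]
    have : ((∑ z ∈ S, dg E z : ℕ) : ℝ) ≤ ((2 * E.card : ℕ) : ℝ) :=
      Nat.cast_le.2 (sum_dg_le E S)
    push_cast at this ⊢
    linarith

end Vale.Agent.P064.Sparse
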