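import Vale.Agent.P064.Sparse.Base

/-! Counting completions in a core by rounds of increasing degree, paying only at branchings. -/

set_option linter.unusedSectionVars false

namespace Vale.Agent.P064.Sparse

open Finset

variable {α V : Type*} [Fintype α] [DecidableEq α] [Fintype V] [DecidableEq V]
variable {C : Setup α V}

/-- The members of a family agreeing with a map on a set. -/
def fam (Γ : Finset (α → V)) (P : Finset α) (ψ : α → V) : Finset (α → V) :=
  Γ.filter fun g => ∀ a ∈ P, g a = ψ a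

/-- The excess still to be paid. -/
def phi (C : Setup α V) (P₀ P T : Finset α) : ℕ :=
  ∑ a ∈ T, (C.deg P T a - if a ∈ P₀ then 0 else if a ∈ P then 1 else 2)

/-- Free vertices already reached have lost an edge. -/
def Reached (C : Setup α V) (P₀ P T : Finset α) : Prop :=
  ∀ w ∈ P, w ∉ P₀ → C.deg P T w + 1 ≤ C.deg P₀ T w

/-- The vertices without further edges. -/
def done (C : Setup α V) (P T : Finset α) : Finset α := P.filter fun a => C.deg P T a = 0

/-- The product of the weights not yet used. -/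
noncomputable def unused (C : Setup α V) (E : Finset (Sym2 V)) (S : Finset V) (P T : Finset α)
    (ψ : α → V) : ℝ :=
  ∏ z ∈ S \ (done C P T).image ψ, Real.exp ((dg E z : ℝ) - 2)

/-- The potential of the rounds from `j` up to `K`. -/
noncomputable def pot2 (C : Setup α V) (P₀ T : Finset α) (j K : ℕ) : ℝ :=
  ∑ i ∈ Ico j K, (2 : ℝ) ^ i *
    (T.filter fun a => (a ∈ P₀ ∨ 3 ≤ C.deg P₀ T a) ∧ 2 ^ i < 2 * C.deg P₀ T a).card

lemma deg_mono {P Q T : Finset α} (h : P ⊆ Q) (a : α) : C.deg Q T a ≤ C.deg P T a :=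
  card_le_card (filter_subset_filter _ (Setup.new_anti h))

lemma deg_eq_nbr (_h : C.Hyp) {P T : Finset α} (hPT : P ⊆ T) {w : α} (hw : w ∈ P) :
    C.deg P T w = (C.nbr P T w).card := by
  classical
  refine le_antisymm ?_ (Setup.nbr_le_deg subset_rfl hPT hw)
  refine card_le_card_of_surjOn (fun a => s(w, a)) fun e he => ?_
  obtain ⟨he, hwe⟩ := mem_filter.1 he
  obtain ⟨b, hb, rfl, -⟩ := Setup.other_end hw he hwe
  exact ⟨b, mem_filter.2 ⟨hb, (Setup.mem_D.1 (Setup.mem_new.1 he).1).1⟩, rfl⟩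

/-- Revealing all neighbours of a vertex. -/
lemma phi_step (h : C.Hyp) {P₀ P T : Finset α} (hP₀ : P₀ ⊆ P) (hPT : P ⊆ T)
    (hre : Reached C P₀ P T) {w : α} (hw : w ∈ P) :
    phi C P₀ (P ∪ C.nbr P T w) T + (C.deg P T w - if w ∈ P₀ then 0 else 1) ≤ phi C P₀ P T
      ∧ Reached C P₀ (P ∪ C.nbr P T w) T ∧ C.deg (P ∪ C.nbr P T w) T w = 0 := by
  classical
  set N := C.nbr P T w with hN
  set Q := P ∪ N with hQ
  have hwT := hPT hw
  have hzero : C.deg Q T w = 0 := by
    refine card_eq_zero.2 (filter_eq_empty_iff.2 fun e he hwe => ?_)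
    obtain ⟨b, hb, rfl, -⟩ := Setup.other_end (mem_union_left _ hw) he hwe
    refine (mem_sdiff.1 hb).2 (mem_union_right _ (mem_filter.2 ⟨?_, ?_⟩))
    · exact mem_sdiff.2 ⟨(mem_sdiff.1 hb).1, fun h' => (mem_sdiff.1 hb).2 (mem_union_left _ h')⟩
    · exact (Setup.mem_D.1 (Setup.mem_new.1 he).1).1
  have hnew : ∀ v ∈ N, C.deg Q T v + 1 ≤ C.deg P T v := by
    intro v hv
    obtain ⟨hvTP, hve⟩ := mem_filter.1 hv
    refine card_lt_card ((ssubset_iff_of_subset
      (filter_subset_filter _ (Setup.new_anti subset_union_left))).2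
        ⟨s(w, v), mem_filter.2 ⟨Setup.mem_new.2 ⟨Setup.mem_D.2 ⟨hve, fun a ha => ?_⟩, v,
          Sym2.mem_mk_right w v, (mem_sdiff.1 hvTP).2⟩, Sym2.mem_mk_right w v⟩, fun hc => ?_⟩)
    · rcases Sym2.mem_iff.1 ha with rfl | rfl
      · exact hwT
      · exact (mem_sdiff.1 hvTP).1
    · obtain ⟨-, a, ha, haQ⟩ := Setup.mem_new.1 (mem_filter.1 hc).1
      rcases Sym2.mem_iff.1 ha with rfl | rfl
      · exact haQ (mem_union_left _ hw)
      · exact haQ (mem_union_right _ hv)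
  refine ⟨?_, fun v hvQ hv0 => ?_, hzero⟩
  · simp only [phi]
    rw [← sum_erase_add _ _ hwT, ← sum_erase_add _ _ hwT, if_pos hw, hzero, Nat.zero_sub,
      Nat.add_zero]
    have hw' : (if w ∈ P₀ then 0 else 1) = if w ∈ P₀ then 0 else if w ∈ P then 1 else 2 := by
      simp [hw]
    refine Nat.add_le_add (sum_le_sum fun a ha => ?_) le_rfl
    have hmono : C.deg Q T a ≤ C.deg P T a := deg_mono subset_union_left a
    by_cases h0 : a ∈ P₀
    · simp only [h0, if_true]; omega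
    by_cases haP : a ∈ P
    · have haQ : a ∈ Q := mem_union_left _ haP
      simp only [h0, haP, haQ, if_true, if_false]; omega
    by_cases haN : a ∈ N
    · have := hnew a haN
      have haQ : a ∈ Q := mem_union_right _ haN
      simp only [h0, haP, haQ, if_true, if_false]
      omega
    · have haQ : a ∉ Q := fun h' => (mem_union.1 h').elim haP haN
      simp only [h0, haP, haQ, if_false]
      omega
  · rcases mem_union.1 hvQ with hvP | hvN
    · exact le_trans (Nat.add_le_add_right (deg_mono subset_union_left v) 1) (hre v hvP hv0)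
    · exact (hnew v hvN).trans (deg_mono hP₀ v)

variable {Γ : Finset (α → V)} {E : Finset (Sym2 V)} {S : Finset V}

/-- One round: reveal along free steps and at vertices with at most `θ` further edges. -/
theorem round_step (h : C.Hyp) {P₀ T : Finset α} {φ : α → V} (hΓ : Γ ⊆ C.ext P₀ T φ)
    (hE : ∀ g ∈ Γ, ∀ e ∈ C.new P₀ T, e.map g ∈ E) (hS : ∀ g ∈ Γ, ∀ a ∈ T \ P₀, g a ∈ S)
    (h2 : ∀ z ∈ S, 2 ≤ dg E z) {θ : ℕ} (hθ : 1 ≤ θ) :
    ∀ k P, (T \ P).card = k → P₀ ⊆ P → P ⊆ T → Reached C P₀ P T →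
      ∃ P' b, P ⊆ P' ∧ P' ⊆ T ∧ Reached C P₀ P' T ∧ b + 2 * phi C P₀ P' T ≤ 2 * phi C P₀ P T
        ∧ (∀ w ∈ P', C.deg P' T w = 0 ∨ θ < C.deg P' T w)
        ∧ ∀ ψ, ∀ Av : Finset (Sym2 V),
          (∀ g ∈ fam Γ P ψ, ∀ e ∈ C.new P T, e.map g ∈ Av) →
          ∀ M : ℝ, 0 ≤ M → (∀ ψ', ((fam Γ P' ψ').card : ℝ) ≤ M * unused C E S P' T ψ') →
          ((fam Γ P ψ).card : ℝ)
            ≤ (θ : ℝ) ^ b * (Av.card.choose b) * M * unused C E S P T ψ := by
  classical
  intro k
  induction k using Nat.strong_induction_on with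
  | _ k ih =>
  intro P hk hP₀ hPT hre
  by_cases hw : ∃ w ∈ P, 0 < C.deg P T w ∧ C.deg P T w ≤ θ
  swap
  · refine ⟨P, 0, subset_rfl, hPT, hre, by omega, fun w hwP => ?_, fun ψ Av _ M _ hM => ?_⟩
    · by_contra hc
      rw [not_or, not_lt] at hc
      exact hw ⟨w, hwP, Nat.pos_of_ne_zero hc.1, hc.2⟩
    · simpa using hM ψ
  have hexp : ∀ z ∈ S, (1 : ℝ) ≤ Real.exp ((dg E z : ℝ) - 2) := fun z hz => by
    have : (2 : ℝ) ≤ dg E z := by exact_mod_cast h2 z hz
    exact Real.one_le_exp (by linarith)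
  have hmember : ∀ {P : Finset α} {ψ : α → V} {g}, g ∈ fam Γ P ψ →
      g ∈ Γ ∧ g ∈ C.emb T ∧ ∀ a ∈ P, g a = ψ a := fun hg =>
    ⟨(mem_filter.1 hg).1, (Setup.mem_ext.1 (hΓ (mem_filter.1 hg).1)).1, (mem_filter.1 hg).2⟩
  have hmono : ∀ {P1 : Finset α} {ψ g : α → V}, P ⊆ P1 → (∀ a ∈ P, g a = ψ a) →
      unused C E S P1 T g ≤ unused C E S P T ψ := by
    intro P1 ψ g hsub hg
    refine prod_le_prod_of_subset_of_one_le (sdiff_subset_sdiff subset_rfl ?_)
      (fun z _ => (Real.exp_pos _).le) (fun z hz _ => hexp z (mem_sdiff.1 hz).1)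
    intro z hz
    obtain ⟨a, ha, rfl⟩ := mem_image.1 hz
    obtain ⟨haP, hd⟩ := mem_filter.1 ha
    exact mem_image.2 ⟨a, mem_filter.2 ⟨hsub haP, Nat.le_zero.1 ((deg_mono hsub a).trans hd.le)⟩,
      hg a haP⟩
  by_cases hfree : ∃ w ∈ P, w ∉ P₀ ∧ C.deg P T w = 1
  · obtain ⟨w, hwP, hw0, hd1⟩ := hfree
    set N := C.nbr P T w with hN
    have hNc : N.card = 1 := (deg_eq_nbr h hPT hwP).symm.trans hd1
    obtain ⟨a, hNa⟩ := card_eq_one.1 hNc
    set P1 := P ∪ N with hP1
    have haN : a ∈ N := hNa ▸ mem_singleton_self a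
    obtain ⟨haTP, hae⟩ := mem_filter.1 haN
    obtain ⟨haT, haP⟩ := mem_sdiff.1 haTP
    have hP1T : P1 ⊆ T := union_subset hPT ((filter_subset _ _).trans sdiff_subset)
    obtain ⟨hphi, hre1, hzero⟩ := phi_step h hP₀ hPT hre hwP
    have hlt : (T \ P1).card < k := by
      rw [← hk]
      refine card_lt_card ((ssubset_iff_of_subset (sdiff_subset_sdiff subset_rfl
        subset_union_left)).2 ⟨a, haTP, fun h' => (mem_sdiff.1 h').2 (mem_union_right _ haN)⟩)
    obtain ⟨P', b, hsub, hP'T, hre', hb, hstab, hP'⟩ :=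
      ih _ hlt P1 rfl (hP₀.trans subset_union_left) hP1T hre1
    refine ⟨P', b, subset_union_left.trans hsub, hP'T, hre', by
      rw [← hP1] at hphi; omega, hstab, fun ψ Av hAv M hM0 hM => ?_⟩
    set B := (θ : ℝ) ^ b * (Av.card.choose b) * M with hB
    have hB0 : 0 ≤ B := by positivity
    -- the edge by which `w` was reached
    have hpar : ∃ p ∈ P, s(w, p) ∈ C.new P₀ T := by
      obtain ⟨e, he, heP⟩ := exists_mem_notMem_of_card_lt_card
        (s := (C.new P T).filter fun e => w ∈ e) (t := (C.new P₀ T).filter fun e => w ∈ e)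
        (hre w hwP hw0)
      obtain ⟨he0, hwe⟩ := mem_filter.1 he
      obtain ⟨p, rfl⟩ := Sym2.mem_iff_exists.1 hwe
      refine ⟨p, ?_, he0⟩
      by_contra hpP
      exact heP (mem_filter.2 ⟨Setup.mem_new.2 ⟨(Setup.mem_new.1 he0).1, p,
        Sym2.mem_mk_right w p, hpP⟩, hwe⟩)
    obtain ⟨p, hpP, hwp⟩ := hpar
    have hea : s(w, a) ∈ C.new P₀ T := Setup.new_anti hP₀ (Setup.mem_new.2
      ⟨Setup.mem_D.2 ⟨hae, fun c hc => (Sym2.mem_iff.1 hc).elim (fun h' => h' ▸ hPT hwP)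
        (fun h' => h' ▸ haT)⟩, a, Sym2.mem_mk_right w a, haP⟩)
    set Y := (fam Γ P ψ).image fun g => g a with hY
    have hfib : ∀ z ∈ Y, z ∈ (univ.filter fun y => s(ψ w, y) ∈ E ∧ y ≠ ψ p) ∧
        (((fam Γ P ψ).filter fun g => g a = z).card : ℝ)
          * Real.exp ((dg E (ψ w) : ℝ) - 2) ≤ B * unused C E S P T ψ ∧ ψ w ∈ S
        ∧ s(ψ w, ψ p) ∈ E := by
      intro z hz
      obtain ⟨g, hg, rfl⟩ := mem_image.1 hz
      obtain ⟨hgΓ, hgT, hgP⟩ := hmember hg
      have hzS : ψ w ∈ S := hgP w hwP ▸ hS g hgΓ w (mem_sdiff.2 ⟨hPT hwP, hw0⟩)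
      have hmap1 := hE g hgΓ _ hea
      have hmap2 := hE g hgΓ _ hwp
      rw [Sym2.map_mk, hgP w hwP] at hmap1 hmap2
      rw [hgP p hpP] at hmap2
      refine ⟨mem_filter.2 ⟨mem_univ _, hmap1, fun hc => ?_⟩, ?_, hzS, hmap2⟩
      · rw [← hgP p hpP] at hc
        exact haP ((Setup.mem_emb.1 hgT).2.1 a haT p (hPT hpP) hc ▸ hpP)
      have hsubf : ((fam Γ P ψ).filter fun g' => g' a = g a) ⊆ fam Γ P1 g := by
        intro g' hg'
        obtain ⟨hg', hga⟩ := mem_filter.1 hg'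
        refine mem_filter.2 ⟨(mem_filter.1 hg').1, fun c hc => ?_⟩
        rcases mem_union.1 hc with hc | hc
        · rw [(mem_filter.1 hg').2 c hc, hgP c hc]
        · rw [hNa, mem_singleton] at hc
          exact hc ▸ hga
      have hrec := hP' g Av (fun g' hg' e he => hAv g' (mem_filter.2 ⟨(mem_filter.1 hg').1,
        fun c hc => by rw [(mem_filter.1 hg').2 c (mem_union_left _ hc), hgP c hc]⟩) e
        (Setup.new_anti subset_union_left he)) M hM0 hM
      have hnot : ψ w ∉ (done C P T).image ψ := fun hc => by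
        obtain ⟨c, hc, hcw⟩ := mem_image.1 hc
        obtain ⟨hcP, hd0⟩ := mem_filter.1 hc
        rw [← hgP c hcP, ← hgP w hwP] at hcw
        rw [(Setup.mem_emb.1 hgT).2.1 c (hPT hcP) w (hPT hwP) hcw, hd1] at hd0
        exact one_ne_zero hd0
      have hsplit : unused C E S P1 T g * Real.exp ((dg E (ψ w) : ℝ) - 2)
          ≤ unused C E S P T ψ := by
        rw [unused, unused, ← mul_prod_erase _ _ (mem_sdiff.2 ⟨hzS, hnot⟩), mul_comm]
        refine mul_le_mul_of_nonneg_left ?_ (Real.exp_pos _).le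
        refine prod_le_prod_of_subset_of_one_le ?_ (fun z _ => (Real.exp_pos _).le)
          (fun z hz _ => hexp z (mem_sdiff.1 (mem_of_mem_erase hz)).1)
        intro y hy
        obtain ⟨hyS, hyn⟩ := mem_sdiff.1 hy
        refine mem_erase.2 ⟨fun hc => hyn (mem_image.2 ⟨w, mem_filter.2 ⟨mem_union_left _ hwP,
          hzero⟩, hgP w hwP ▸ hc.symm⟩), mem_sdiff.2 ⟨hyS, fun hc => hyn ?_⟩⟩
        obtain ⟨c, hcd, rfl⟩ := mem_image.1 hc
        obtain ⟨hcP, hd0⟩ := mem_filter.1 hcd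
        exact mem_image.2 ⟨c, mem_filter.2 ⟨mem_union_left _ hcP,
          Nat.le_zero.1 ((deg_mono subset_union_left c).trans hd0.le)⟩, hgP c hcP⟩
      calc (((fam Γ P ψ).filter fun g' => g' a = g a).card : ℝ)
            * Real.exp ((dg E (ψ w) : ℝ) - 2)
          ≤ B * unused C E S P1 T g * Real.exp ((dg E (ψ w) : ℝ) - 2) :=
            mul_le_mul_of_nonneg_right ((Nat.cast_le.2 (card_le_card hsubf)).trans hrec)
              (Real.exp_pos _).le
        _ = B * (unused C E S P1 T g * Real.exp ((dg E (ψ w) : ℝ) - 2)) := by ring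
        _ ≤ _ := mul_le_mul_of_nonneg_left hsplit hB0
    have hU0 : 0 ≤ unused C E S P T ψ := by unfold unused; positivity
    rcases Y.eq_empty_or_nonempty with hY0 | ⟨z0, hz0⟩
    · rw [card_eq_sum_card_image (fun g => g a), ← hY, hY0, sum_empty, Nat.cast_zero]
      positivity
    obtain ⟨-, -, hzS, hwpE⟩ := hfib z0 hz0
    set e0 := Real.exp ((dg E (ψ w) : ℝ) - 2) with he0
    have hYle : (Y.card : ℝ) ≤ e0 := by
      have hlt' : Y.card + 1 ≤ dg E (ψ w) := by
        have hnot : ψ p ∉ Y := fun h' => (mem_filter.1 (hfib _ h').1).2.2 rfl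
        rw [← card_insert_of_notMem hnot]
        refine card_le_card_of_injOn (fun y => s(ψ w, y)) (fun y hy => ?_)
          fun y _ y' _ hyy => Sym2.congr_right.1 hyy
        rcases mem_insert.1 hy with rfl | hy
        · exact mem_filter.2 ⟨hwpE, Sym2.mem_mk_left _ _⟩
        · exact mem_filter.2 ⟨(mem_filter.1 (hfib y hy).1).2.1, Sym2.mem_mk_left _ _⟩
      have := Real.add_one_le_exp ((dg E (ψ w) : ℝ) - 2)
      have : (Y.card : ℝ) + 1 ≤ dg E (ψ w) := by exact_mod_cast hlt'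
      linarith
    refine le_of_mul_le_mul_right ?_ (Real.exp_pos ((dg E (ψ w) : ℝ) - 2))
    calc ((fam Γ P ψ).card : ℝ) * e0
        = ∑ z ∈ Y, (((fam Γ P ψ).filter fun g => g a = z).card : ℝ) * e0 := by
          rw [← sum_mul, ← Nat.cast_sum, ← card_eq_sum_card_image]
      _ ≤ ∑ _z ∈ Y, B * unused C E S P T ψ := sum_le_sum fun z hz => (hfib z hz).2.1
      _ = (Y.card : ℝ) * (B * unused C E S P T ψ) := by rw [sum_const, nsmul_eq_mul]
      _ ≤ e0 * (B * unused C E S P T ψ) := mul_le_mul_of_nonneg_right hYle (by positivity)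
      _ = _ := by rw [mul_comm]
  obtain ⟨w, hwP, hd0, hdθ⟩ := hw
  simp only [not_exists, not_and] at hfree
  set N := C.nbr P T w with hN
  have hNc : N.card = C.deg P T w := (deg_eq_nbr h hPT hwP).symm
  have hNsub : N ⊆ T \ P := filter_subset _ _
  set P1 := P ∪ N with hP1
  have hP1T : P1 ⊆ T := union_subset hPT (hNsub.trans sdiff_subset)
  obtain ⟨hphi, hre1, -⟩ := phi_step h hP₀ hPT hre hwP
  have hlt : (T \ P1).card < k := by
    obtain ⟨a, ha⟩ := card_pos.1 (hNc.symm ▸ hd0 : 0 < N.card)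
    rw [← hk]
    exact card_lt_card ((ssubset_iff_of_subset (sdiff_subset_sdiff subset_rfl
      subset_union_left)).2 ⟨a, hNsub ha, fun h' => (mem_sdiff.1 h').2 (mem_union_right _ ha)⟩)
  obtain ⟨P', b1, hsub, hP'T, hre', hb, hstab, hP'⟩ :=
    ih _ hlt P1 rfl (hP₀.trans subset_union_left) hP1T hre1
  refine ⟨P', N.card + b1, subset_union_left.trans hsub, hP'T, hre', ?_, hstab,
    fun ψ Av hAv M hM0 hM => ?_⟩
  · rw [← hP1] at hphi
    by_cases hw0 : w ∈ P₀
    · simp only [hw0, if_true] at hphi; omega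
    · have := hfree w hwP hw0
      simp only [hw0, if_false] at hphi; omega
  set star := Av.filter (fun z => ψ w ∈ z) with hstar
  set Nb := univ.filter (fun z : V => s(ψ w, z) ∈ star) with hNb
  have hNb' : Nb.card ≤ star.card :=
    card_le_card_of_injOn (fun z => s(ψ w, z)) (fun z hz => (mem_filter.1 hz).2)
      (fun a _ b _ hab => Sym2.congr_right.1 hab)
  have hU0 : 0 ≤ unused C E S P T ψ := by unfold unused; positivity
  set F := fam Γ P ψ with hF
  have hfib : ∀ g0 ∈ F, ((F.filter fun g => C.res P1 g = C.res P1 g0).card : ℝ)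
      ≤ (θ : ℝ) ^ b1 * ((Av.card - star.card).choose b1) * M * unused C E S P T ψ := by
    intro g0 hg0
    obtain ⟨-, hg0T, hg0P⟩ := hmember hg0
    have hsubf : (F.filter fun g => C.res P1 g = C.res P1 g0) ⊆ fam Γ P1 g0 := by
      intro g hg
      obtain ⟨hg, heq⟩ := mem_filter.1 hg
      refine mem_filter.2 ⟨(mem_filter.1 hg).1, fun a ha => ?_⟩
      have := congrFun heq a
      rwa [Setup.res_eq ha, Setup.res_eq ha] at this
    refine le_trans (Nat.cast_le.2 (card_le_card hsubf)) ?_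
    rw [← card_sdiff_of_subset (show star ⊆ Av from filter_subset _ _)]
    refine (hP' g0 (Av \ star) (fun g hg e he => ?_) M hM0 hM).trans
      (mul_le_mul_of_nonneg_left (hmono subset_union_left hg0P) (by positivity))
    obtain ⟨-, hgT, hgP1⟩ := hmember hg
    have hgP : ∀ a ∈ P, g a = ψ a := fun a ha => by
      rw [hgP1 a (mem_union_left _ ha), hg0P a ha]
    refine mem_sdiff.2 ⟨hAv g (mem_filter.2 ⟨(mem_filter.1 hg).1, hgP⟩) e
      (Setup.new_anti subset_union_left he), fun hz => ?_⟩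
    obtain ⟨a, hae, haw⟩ := Sym2.mem_map.1 (mem_filter.1 hz).2
    rw [← hgP w hwP] at haw
    have : a = w := (Setup.mem_emb.1 hgT).2.1 a ((Setup.mem_D.1 (Setup.mem_new.1 he).1).2 a hae)
      w (hPT hwP) haw
    rw [this] at hae
    obtain ⟨c, hc, rfl, -⟩ := Setup.other_end (mem_union_left _ hwP) he hae
    obtain ⟨hcT, hcP1⟩ := mem_sdiff.1 hc
    exact hcP1 (mem_union_right _ (mem_filter.2 ⟨mem_sdiff.2
      ⟨hcT, fun h => hcP1 (mem_union_left _ h)⟩, (Setup.mem_D.1 (Setup.mem_new.1 he).1).1⟩))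
  have himg : (F.image (C.res P1)).card ≤ Nb.card.descFactorial N.card := by
    refine le_trans (card_le_card_of_injOn (t := univ.filter fun G : {a // a ∈ N} → V =>
      Function.Injective G ∧ ∀ a, G a ∈ Nb) (fun f a => f a.1) (fun f hf => ?_)
      fun f hf f' hf' hff => ?_) ?_
    · obtain ⟨g, hg, rfl⟩ := mem_image.1 hf
      obtain ⟨-, hgT, hgP⟩ := hmember hg
      simp only [mem_coe, mem_filter, mem_univ, true_and]
      refine ⟨fun a b hab => ?_, fun a => ?_⟩
      · simp only [Setup.res_eq (show a.1 ∈ P1 from mem_union_right P a.2),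
          Setup.res_eq (show b.1 ∈ P1 from mem_union_right P b.2)] at hab
        exact Subtype.ext ((Setup.mem_emb.1 hgT).2.1 a.1 (mem_sdiff.1 (hNsub a.2)).1 b.1
          (mem_sdiff.1 (hNsub b.2)).1 hab)
      · obtain ⟨haTP, haE⟩ := mem_filter.1 a.2
        obtain ⟨haT, haP⟩ := mem_sdiff.1 haTP
        have he : s(w, a.1) ∈ C.new P T := Setup.mem_new.2 ⟨Setup.mem_D.2 ⟨haE, fun c hc =>
          (Sym2.mem_iff.1 hc).elim (fun h' => h' ▸ hPT hwP) (fun h' => h' ▸ haT)⟩, a.1,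
          Sym2.mem_mk_right w a.1, haP⟩
        have := hAv g hg _ he
        rw [Sym2.map_mk, hgP w hwP] at this
        rw [Setup.res_eq (show a.1 ∈ P1 from mem_union_right P a.2)]
        exact mem_filter.2 ⟨mem_univ _, mem_filter.2 ⟨this, Sym2.mem_mk_left _ _⟩⟩
    · obtain ⟨g, hg, rfl⟩ := mem_image.1 hf
      obtain ⟨g', hg', rfl⟩ := mem_image.1 hf'
      funext a
      by_cases ha : a ∈ P1
      · rcases mem_union.1 ha with haP | haN
        · rw [Setup.res_eq ha, Setup.res_eq ha, (hmember hg).2.2 a haP, (hmember hg').2.2 a haP]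
        · exact congrFun hff ⟨a, haN⟩
      · simp [Setup.res, ha]
    · calc (univ.filter fun G : {a // a ∈ N} → V => Function.Injective G ∧ ∀ a, G a ∈ Nb).card
          ≤ (univ : Finset ({a // a ∈ N} ↪ {z // z ∈ Nb})).card := by
            refine card_le_card_of_surjOn (fun e a => (e a).1) fun G hG => ?_
            obtain ⟨hinj, hmem⟩ := (mem_filter.1 hG).2
            exact ⟨⟨fun a => ⟨G a, hmem a⟩, fun a b h => hinj (congrArg Subtype.val h)⟩,
              by simp, rfl⟩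
        _ = _ := by simp [Fintype.card_embedding_eq]
  have hdesc : (Nb.card.descFactorial N.card : ℝ)
      ≤ (θ : ℝ) ^ N.card * (star.card.choose N.card) := by
    rw [Nat.descFactorial_eq_factorial_mul_choose]
    push_cast
    refine mul_le_mul ?_ (Nat.cast_le.2 (Nat.choose_le_choose _ hNb')) (Nat.cast_nonneg _)
      (by positivity)
    calc (N.card.factorial : ℝ) ≤ ((N.card ^ N.card : ℕ) : ℝ) :=
          Nat.cast_le.2 (Nat.factorial_le_pow _)
      _ ≤ _ := by push_cast; gcongr; exact_mod_cast hNc.symm ▸ hdθ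
  have hvan : star.card.choose N.card * (Av.card - star.card).choose b1
      ≤ Av.card.choose (N.card + b1) := by
    have hle : star.card ≤ Av.card := card_le_card (filter_subset _ _)
    conv_rhs => rw [← Nat.add_sub_cancel' hle, Nat.add_choose_eq]
    exact single_le_sum (f := fun ij : ℕ × ℕ => star.card.choose ij.1
      * (Av.card - star.card).choose ij.2) (fun _ _ => Nat.zero_le _)
      (mem_antidiagonal.2 (rfl : (N.card, b1).1 + (N.card, b1).2 = N.card + b1))
  set R := M * unused C E S P T ψ with hR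
  have hR0 : 0 ≤ R := mul_nonneg hM0 hU0
  calc (F.card : ℝ)
      = ∑ ψ' ∈ F.image (C.res P1), ((F.filter fun g => C.res P1 g = ψ').card : ℝ) := by
        rw [← Nat.cast_sum, ← card_eq_sum_card_image]
    _ ≤ ∑ _ψ ∈ F.image (C.res P1), (θ : ℝ) ^ b1 * ((Av.card - star.card).choose b1) * R := by
        refine sum_le_sum fun ψ' hψ' => ?_
        obtain ⟨g0, hg0, rfl⟩ := mem_image.1 hψ'
        rw [hR, ← mul_assoc]
        exact hfib g0 hg0
    _ ≤ (Nb.card.descFactorial N.card : ℝ)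
          * ((θ : ℝ) ^ b1 * ((Av.card - star.card).choose b1) * R) := by
        rw [sum_const, nsmul_eq_mul]
        exact mul_le_mul_of_nonneg_right (Nat.cast_le.2 himg) (by positivity)
    _ ≤ (θ : ℝ) ^ N.card * (star.card.choose N.card)
          * ((θ : ℝ) ^ b1 * ((Av.card - star.card).choose b1) * R) :=
        mul_le_mul_of_nonneg_right hdesc (by positivity)
    _ = (θ : ℝ) ^ (N.card + b1)
          * ((star.card.choose N.card * (Av.card - star.card).choose b1 : ℕ) : ℝ) * R := by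
        push_cast; ring
    _ ≤ (θ : ℝ) ^ (N.card + b1) * (Av.card.choose (N.card + b1)) * R := by gcongr
    _ = _ := by rw [hR]; ring

/-- All rounds: branchings cost `2 log n` per unit of excess. -/
theorem rounds (h : C.Hyp) (hl : 1 ≤ ll C) {W P₀ T : Finset α} (hm : C.Margin W T)
    (hWP : W ⊂ P₀) {φ : α → V} (hΓ : Γ ⊆ C.ext P₀ T φ)
    (hE : ∀ g ∈ Γ, ∀ e ∈ C.new P₀ T, e.map g ∈ E) (hS : ∀ g ∈ Γ, ∀ a ∈ T \ P₀, g a ∈ S)
    (h2 : ∀ z ∈ S, 2 ≤ dg E z) :
    ∀ k j, 2 * T.card + 1 - j = k → ∀ P, P₀ ⊆ P → P ⊆ T → Reached C P₀ P T →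
      (∀ w ∈ P, C.deg P T w = 0 ∨
        (2 ^ j < 2 * C.deg P₀ T w ∧ (w ∈ P₀ ∨ 3 ≤ C.deg P₀ T w))) →
      ∀ ψ, ((fam Γ P ψ).card : ℝ) ≤ (2 * ll C) ^ (2 * phi C P₀ P T)
        * Real.exp (pot2 C P₀ T j (2 * T.card + 1)) * unused C E S P T ψ := by
  classical
  intro k
  induction k using Nat.strong_induction_on with
  | _ k ih =>
  intro j hk P hP₀ hPT hre hst ψ
  have hpot : ∀ i, 0 ≤ pot2 C P₀ T i (2 * T.card + 1) := fun i =>
    sum_nonneg fun _ _ => by positivity
  have hU1 : ∀ (P : Finset α) ψ, 1 ≤ unused C E S P T ψ := fun P ψ =>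
    one_le_prod fun z hz => by
      have : (2 : ℝ) ≤ dg E z := by exact_mod_cast h2 z (mem_sdiff.1 hz).1
      exact Real.one_le_exp (by linarith)
  have h2l : 1 ≤ 2 * ll C := by linarith
  have hone : 1 ≤ (2 * ll C) ^ (2 * phi C P₀ P T)
      * Real.exp (pot2 C P₀ T j (2 * T.card + 1)) * unused C E S P T ψ :=
    one_le_mul_of_one_le_of_one_le (one_le_mul_of_one_le_of_one_le (one_le_pow₀ h2l)
      (Real.one_le_exp (hpot j))) (hU1 P ψ)
  rcases (fam Γ P ψ).eq_empty_or_nonempty with h0 | ⟨g, hg⟩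
  · rw [h0, card_empty, Nat.cast_zero]; linarith
  have hsubext : fam Γ P ψ ⊆ C.ext P T ψ := fun g hg =>
    Setup.mem_ext.2 ⟨(Setup.mem_ext.1 (hΓ (mem_filter.1 hg).1)).1, (mem_filter.1 hg).2⟩
  by_cases hne : P = T
  · subst hne
    refine le_trans ?_ hone
    exact_mod_cast (card_le_card hsubext).trans (Setup.ext_self_card P ψ)
  have hWP' := hWP.trans_subset hP₀
  set R := C.roots P T with hR
  have hRne : R.Nonempty := Setup.roots_nonempty h hm hWP' hPT hne (hsubext hg)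
  have hRsub : R ⊆ T.filter fun a =>
      (a ∈ P₀ ∨ 3 ≤ C.deg P₀ T a) ∧ 2 ^ j < 2 * C.deg P₀ T a := by
    intro w hw
    obtain ⟨hwP, hd⟩ := (Setup.mem_roots hPT).1 hw
    rcases hst w hwP with h0 | ⟨h1, h2'⟩
    · rw [deg_eq_nbr h hPT hwP] at h0; omega
    · exact mem_filter.2 ⟨hPT hwP, h2', h1⟩
  have hjK : j < 2 * T.card + 1 := by
    obtain ⟨w, hw⟩ := hRne
    obtain ⟨hwT, -, h1⟩ := mem_filter.1 (hRsub hw)
    have hd : C.deg P₀ T w ≤ T.card := by
      have hinj : Set.InjOn (fun e : Sym2 α => if he : w ∈ e then Sym2.Mem.other he else w)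
          ((C.new P₀ T).filter fun e => w ∈ e : Finset (Sym2 α)) := by
        intro e he e' he' hee
        obtain ⟨-, hwe⟩ := mem_filter.1 he
        obtain ⟨-, hwe'⟩ := mem_filter.1 he'
        simp only [dif_pos hwe, dif_pos hwe'] at hee
        rw [← Sym2.other_spec hwe, ← Sym2.other_spec hwe', hee]
      refine card_le_card_of_injOn _ (fun e he => ?_) hinj
      obtain ⟨he, hwe⟩ := mem_filter.1 he
      simp only [dif_pos hwe]
      exact (Setup.mem_D.1 (Setup.mem_new.1 he).1).2 _ (Sym2.other_mem hwe)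
    have := Nat.lt_two_pow_self (n := j)
    omega
  obtain ⟨Av, hAv, hAvc⟩ := Setup.cluster h hm hWP' hPT (φ := ψ)
  obtain ⟨P', b, hsub, hP'T, hre', hb, hstab, hcl⟩ :=
    round_step h hΓ hE hS h2 (θ := 2 ^ j) Nat.one_le_two_pow _ P rfl hP₀ hPT hre
  set M := (2 * ll C) ^ (2 * phi C P₀ P' T)
    * Real.exp (pot2 C P₀ T (j + 1) (2 * T.card + 1)) with hM
  have hrec : ∀ ψ', ((fam Γ P' ψ').card : ℝ) ≤ M * unused C E S P' T ψ' := fun ψ' =>
    ih (2 * T.card + 1 - (j + 1)) (by omega) (j + 1) rfl P' (hP₀.trans hsub) hP'T hre'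
      (fun w hw => (hstab w hw).imp id fun h' => by
        have h1 := deg_mono (C := C) (T := T) (hP₀.trans hsub) w
        have h3 : 1 ≤ 2 ^ j := Nat.one_le_two_pow
        refine ⟨by rw [pow_succ]; omega, ?_⟩
        by_cases h0 : w ∈ P₀
        · exact Or.inl h0
        · have := hre' w hw h0
          exact Or.inr (by omega)) ψ'
  refine (hcl ψ Av (fun g hg e he => hAv g (hsubext hg) e he) M (by positivity) hrec).trans ?_
  refine mul_le_mul_of_nonneg_right ?_ (le_trans zero_le_one (hU1 P ψ))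
  have hR1 : (1 : ℝ) ≤ R.card := by exact_mod_cast hRne.card_pos
  have hAvR : (Av.card : ℝ) ≤ R.card * (2 * ll C) := by
    refine hAvc.trans ?_
    change 1 + (R.card : ℝ) * ll C ≤ _
    have := one_le_mul_of_one_le_of_one_le hR1 hl
    linarith
  have hV : (R.card : ℝ) ≤ (T.filter fun a =>
      (a ∈ P₀ ∨ 3 ≤ C.deg P₀ T a) ∧ 2 ^ j < 2 * C.deg P₀ T a).card :=
    Nat.cast_le.2 (card_le_card hRsub)
  have hcore : ((2 ^ j : ℕ) : ℝ) ^ b * (Av.card.choose b)
      ≤ (2 * ll C) ^ b * Real.exp ((2 : ℝ) ^ j * (T.filter fun a =>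
          (a ∈ P₀ ∨ 3 ≤ C.deg P₀ T a) ∧ 2 ^ j < 2 * C.deg P₀ T a).card) := by
    calc ((2 ^ j : ℕ) : ℝ) ^ b * (Av.card.choose b)
        ≤ ((2 : ℝ) ^ j) ^ b * ((Av.card : ℝ) ^ b / b.factorial) := by
          push_cast
          gcongr
          exact Nat.choose_le_pow_div b Av.card
      _ ≤ ((2 : ℝ) ^ j) ^ b * ((R.card * (2 * ll C)) ^ b / b.factorial) := by gcongr
      _ = (2 * ll C) ^ b * (((2 : ℝ) ^ j * R.card) ^ b / b.factorial) := by ring
      _ ≤ (2 * ll C) ^ b * Real.exp ((2 : ℝ) ^ j * R.card) := by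
          gcongr
          exact Real.pow_div_factorial_le_exp _ (by positivity) b
      _ ≤ _ := by gcongr
  calc ((2 ^ j : ℕ) : ℝ) ^ b * (Av.card.choose b) * M
      ≤ (2 * ll C) ^ b * Real.exp ((2 : ℝ) ^ j * (T.filter fun a =>
          (a ∈ P₀ ∨ 3 ≤ C.deg P₀ T a) ∧ 2 ^ j < 2 * C.deg P₀ T a).card) * M :=
        mul_le_mul_of_nonneg_right hcore (by positivity)
    _ = (2 * ll C) ^ (b + 2 * phi C P₀ P' T)
        * Real.exp (pot2 C P₀ T j (2 * T.card + 1)) := by
        rw [hM, pot2, pot2, sum_eq_sum_Ico_succ_bot hjK, Real.exp_add, pow_add]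
        ring
    _ ≤ _ := mul_le_mul_of_nonneg_right (pow_le_pow_right₀ h2l hb) (Real.exp_pos _).le

/-- The excess and the potential at the start. -/
lemma start_bounds (h : C.Hyp) (hc : 1 < (C.n : ℝ) * (Real.exp 1 * C.q)) {W P₀ T : Finset α}
    (hm : C.Margin W T) (hWP : W ⊂ P₀) (hPT : P₀ ⊆ T) (K : ℕ) :
    phi C P₀ P₀ T + 2 * (T \ P₀).card ≤ 2 * (C.new P₀ T).card
      ∧ pot2 C P₀ T 0 K ≤ 12 * phi C P₀ P₀ T := by
  classical
  constructor
  · have hrw : 2 * (T \ P₀).card = ∑ a ∈ T, if a ∈ P₀ then 0 else 2 := by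
      rw [sum_ite, sum_const_zero, zero_add, sum_const, smul_eq_mul, mul_comm,
        sdiff_eq_filter]
    rw [phi, hrw, ← sum_add_distrib]
    refine le_trans (sum_le_sum fun a ha => ?_) (Setup.sum_deg_le (C := C) (W := P₀) (T := T) T)
    by_cases h0 : a ∈ P₀
    · simp [h0]
    · have := deg_two h hc hm hWP hPT (mem_sdiff.2 ⟨ha, h0⟩)
      simp only [h0, if_false]
      omega
  · set f := fun a => a ∈ P₀ ∨ 3 ≤ C.deg P₀ T a with hf
    have hnat : ∑ i ∈ range K, 2 ^ i * (T.filter fun a =>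
        (a ∈ P₀ ∨ 3 ≤ C.deg P₀ T a) ∧ 2 ^ i < 2 * C.deg P₀ T a).card
        ≤ 12 * phi C P₀ P₀ T := by
      simp only [card_filter, mul_sum, mul_ite, mul_one, mul_zero, phi]
      rw [sum_comm]
      refine sum_le_sum fun a ha => ?_
      by_cases hfa : a ∈ P₀ ∨ 3 ≤ C.deg P₀ T a
      · simp only [hfa, true_and]
        have h1 := (geom_filter_le (C.deg P₀ T a) K).1
        by_cases h0 : a ∈ P₀
        · simp only [h0, if_true]; omega
        · have := hfa.resolve_left h0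
          simp only [h0, if_false]
          omega
      · simp [hfa]
    rw [pot2, ← range_eq_Ico]
    exact_mod_cast hnat

end Vale.Agent.P064.Sparse
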