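import Vale.Agent.P064.Sparse.Partition
import Vale.Agent.P064.Sparse.Local
import Vale.Agent.P064.Sparse.Rounds

/-! A pinned piece through its marks: the loss is a power of `log n` per unit of surplus. -/

set_option linter.unusedSectionVars false

namespace Vale.Agent.P064.Sparse

open Finset

variable {α V : Type*} [Fintype α] [DecidableEq α] [Fintype V] [DecidableEq V]
variable {C : Setup α V}

/-- Completions of a pinned piece with surplus `s`. -/
theorem marked (h : C.Hyp) (hR : Range C) {W P T : Finset α} (hm : C.Margin W T) (hWP : W ⊂ P)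
    (hPT : P ⊆ T) (φ : α → V) {rn : ℕ} (hr : (C.new P T).card ≤ rn) {s : ℝ}
    (hs : (((C.new P T).card - (T \ P).card : ℕ) : ℝ) = s)
    (hs1 : s ≤ (rn : ℝ) * mm C / ll C + 1)
    (hbig : ll C ≤ 2 * (rn : ℝ) * mm C) :
    ((C.ext P T φ).card : ℝ)
      ≤ Real.exp (340 * ((rn : ℝ) * (mm C * Real.log (ll C) / ll C))) := by
  classical
  obtain ⟨hM, hl4, hc4⟩ := range_facts h hR
  rcases (C.ext P T φ).eq_empty_or_nonempty with h0 | ⟨g1, hg1⟩
  · rw [h0, card_empty, Nat.cast_zero]; positivity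
  set r' := (C.new P T).card with hr'
  set σ := r' - (T \ P).card with hσ
  have hreach : (T \ P).card ≤ r' :=
    Setup.reach h hm (Setup.mem_ext.1 hg1).1 _ _ rfl hWP hPT
  set U := (T \ P).filter fun a => C.deg P T a ≤ 2 with hU
  set J := (T \ P).filter fun a => 3 ≤ C.deg P T a with hJ
  set rel := fun a b : α => a ≠ b ∧ s(a, b) ∈ C.DF with hrel
  have hUT : ∀ a ∈ U, a ∈ T \ P := fun a ha => (mem_filter.1 ha).1
  set v := ll C / (8 * mm C) with hv
  set L := max 1 ⌊v⌋₊ with hLdef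
  have hL : 1 ≤ L := le_max_left _ _
  have hv0 : 0 ≤ v := div_nonneg (by linarith) (by linarith)
  have hLM : 4 * (L : ℝ) * mm C ≤ ll C := by
    rcases le_total ⌊v⌋₊ 1 with hf | hf
    · rw [hLdef, max_eq_left hf]
      push_cast
      linarith [hR.high]
    · rw [hLdef, max_eq_right hf]
      have := Nat.floor_le hv0
      rw [hv, le_div_iff₀ (by linarith)] at this
      rw [← hv] at this
      linarith
  have hLlow : ll C ≤ 16 * mm C * L := by
    have : v ≤ 2 * (L : ℝ) := by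
      have h1 : (⌊v⌋₊ : ℝ) ≤ L := Nat.cast_le.2 (le_max_right _ _)
      have h2 : (1 : ℝ) ≤ L := Nat.one_le_cast.2 hL
      have := Nat.lt_floor_add_one v
      linarith
    rw [hv, div_le_iff₀ (by linarith)] at this
    linarith
  obtain ⟨Mk, pc, hMU, hMcard, hpc⟩ := exists_partition rel
    (fun a b hab => ⟨hab.1.symm, Sym2.eq_swap ▸ hab.2⟩) hL _ U rfl fun a ha => by
      refine le_trans ?_ (mem_filter.1 ha).2
      refine card_le_card_of_injOn (fun b => s(a, b)) (fun b hb => ?_)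
        fun b _ c _ hbc => Sym2.congr_right.1 hbc
      obtain ⟨hbU, -, hbe⟩ := mem_filter.1 hb
      refine mem_filter.2 ⟨Setup.mem_new.2 ⟨Setup.mem_D.2 ⟨hbe, fun c hc => ?_⟩, a,
        Sym2.mem_mk_left a b, (mem_sdiff.1 (hUT a ha)).2⟩, Sym2.mem_mk_left a b⟩
      rcases Sym2.mem_iff.1 hc with rfl | rfl
      · exact (mem_sdiff.1 (hUT _ ha)).1
      · exact (mem_sdiff.1 (hUT _ hbU)).1
  set Q := J ∪ Mk with hQ
  have hQT : Q ⊆ T \ P := union_subset (filter_subset _ _) fun a ha => hUT a (hMU ha)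
  have hpieces : ∀ a ∈ T \ P, a ∉ Q → a ∈ pc a ∧ pc a ⊆ T \ P
      ∧ (C.new (T \ pc a) T).card ≤ 2 * L
      ∧ ∀ e ∈ C.new (T \ pc a) T, ∀ b ∈ e, b ∈ P ∨ b ∈ Q ∨ b ∈ pc a := by
    intro a ha haQ
    rw [hQ, mem_union, not_or] at haQ
    have haU : a ∈ U := mem_filter.2 ⟨ha, by
      by_contra hc
      exact haQ.1 (mem_filter.2 ⟨ha, by omega⟩)⟩
    obtain ⟨h1, h2, h3, h4⟩ := hpc a haU haQ.2
    have hK : pc a ⊆ T \ P := fun b hb => hUT b (mem_sdiff.1 (h2 hb)).1
    have hPK : P ⊆ T \ pc a := fun b hb =>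
      mem_sdiff.2 ⟨hPT hb, fun h' => (mem_sdiff.1 (hK h')).2 hb⟩
    refine ⟨h1, hK, ?_, fun e he b hb => ?_⟩
    · refine le_trans (card_le_card (t := (pc a).biUnion fun c =>
        (C.new P T).filter fun e => c ∈ e) fun e he => ?_) (card_biUnion_le.trans ?_)
      · obtain ⟨heT, c, hc, hcK⟩ := Setup.mem_new.1 he
        refine mem_biUnion.2 ⟨c, ?_, mem_filter.2 ⟨Setup.new_anti hPK he, hc⟩⟩
        by_contra hcc
        exact hcK (mem_sdiff.2 ⟨(Setup.mem_D.1 heT).2 c hc, hcc⟩)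
      · refine (sum_le_card_nsmul _ _ 2 fun c hc => (mem_filter.1 (mem_sdiff.1 (h2 hc)).1).2).trans ?_
        rw [smul_eq_mul]
        omega
    · obtain ⟨heT, c, hc, hcK⟩ := Setup.mem_new.1 he
      have hbT := (Setup.mem_D.1 heT).2 b hb
      have hcp : c ∈ pc a := by
        by_contra hcc
        exact hcK (mem_sdiff.2 ⟨(Setup.mem_D.1 heT).2 c hc, hcc⟩)
      by_contra hno
      simp only [not_or] at hno
      obtain ⟨hbP, hbQ, hbK⟩ := hno
      have hne : c ≠ b := fun h' => hbK (h' ▸ hcp)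
      have hee : e = s(c, b) := (Sym2.mem_and_mem_iff hne).1 ⟨hc, hb⟩
      rw [hQ, mem_union, not_or] at hbQ
      refine hbK (h4 c hcp b (mem_sdiff.2 ⟨mem_filter.2 ⟨mem_sdiff.2 ⟨hbT, hbP⟩, ?_⟩, hbQ.2⟩)
        ⟨hne, hee ▸ (Setup.mem_D.1 heT).1⟩)
      by_contra hd
      exact hbQ.1 (mem_filter.2 ⟨mem_sdiff.2 ⟨hbT, hbP⟩, by omega⟩)
  obtain ⟨E₁, hmem, -, hE₁, -⟩ := cluster2 h hR hm hWP hPT (φ := φ)
  set S₁ := univ.filter fun z : V => ∃ e ∈ E₁, z ∈ e with hS₁
  have hinS : ∀ g ∈ C.ext P T φ, Q.image g ∈ S₁.powersetCard Q.card := by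
    intro g hg
    refine mem_powersetCard.2 ⟨fun z hz => ?_, card_image_of_injOn fun a ha b hb hab => ?_⟩
    · obtain ⟨a, ha, rfl⟩ := mem_image.1 hz
      obtain ⟨e, he⟩ := card_pos.1
        (lt_of_lt_of_le two_pos (deg_two h (ec_gt h hR) hm hWP hPT (hQT ha)))
      obtain ⟨he, hae⟩ := mem_filter.1 he
      exact mem_filter.2 ⟨mem_univ _, e.map g, hmem g hg e he, Sym2.mem_map.2 ⟨a, hae, rfl⟩⟩
    · exact (Setup.mem_emb.1 (Setup.mem_ext.1 hg).1).2.1 a (mem_sdiff.1 (hQT ha)).1 b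
        (mem_sdiff.1 (hQT hb)).1 hab
  obtain ⟨hphi, hpot⟩ := start_bounds h (ec_gt h hR) hm hWP hPT (2 * T.card + 1)
  set Φ := phi C P P T with hΦ
  have hΦσ : Φ ≤ 2 * σ := by simp only [hσ]; omega
  have hRσ : (C.roots P T).card ≤ 2 * σ := by
    have := roots_le h (ec_gt h hR) hm hWP hPT
    simp only [hσ]; omega
  have hJΦ : J.card ≤ Φ := by
    rw [card_eq_sum_ones, hΦ, phi]
    refine le_trans (sum_le_sum fun a ha => ?_)
      (sum_le_sum_of_subset ((filter_subset _ _).trans sdiff_subset))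
    obtain ⟨haTP, hd⟩ := mem_filter.1 ha
    simp only [(mem_sdiff.1 haTP).2, if_false]
    omega
  have hmQ : (Q.card : ℝ) ≤ 2 * s + 32 * ((rn : ℝ) * mm C / ll C) := by
    have h1 : (Q.card : ℝ) ≤ (J.card : ℝ) + Mk.card := by exact_mod_cast card_union_le _ _
    have h2 : (J.card : ℝ) ≤ 2 * s := by
      rw [← hs]; exact_mod_cast hJΦ.trans hΦσ
    have h3 : L * Mk.card ≤ 2 * rn := hMcard.trans (Nat.mul_le_mul_left 2
      ((card_le_card (filter_subset _ _)).trans (hreach.trans hr)))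
    have h3' : (L : ℝ) * Mk.card ≤ 2 * rn := by exact_mod_cast h3
    have h4 : (Mk.card : ℝ) ≤ 32 * ((rn : ℝ) * mm C / ll C) := by
      rw [show 32 * ((rn : ℝ) * mm C / ll C) = 32 * rn * mm C / ll C by ring,
        le_div_iff₀ (by linarith)]
      have := mul_le_mul_of_nonneg_left hLlow (Nat.cast_nonneg (α := ℝ) Mk.card)
      have := mul_le_mul_of_nonneg_left h3' (show (0 : ℝ) ≤ 16 * mm C by linarith)
      linarith
    linarith
  set B := (2 * ll C) ^ (4 * σ)
    * Real.exp (24 * s + (8 * s + 2 * Q.card + 2)) with hB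
  have hs0 : 0 ≤ s := hs ▸ Nat.cast_nonneg _
  have hfam : ∀ Z : Finset V, Z.card = Q.card →
      (((C.ext P T φ).filter fun g => Q.image g = Z).card : ℝ) ≤ B := by
    intro Z hZc
    set Γ := (C.ext P T φ).filter fun g => Q.image g = Z with hΓ
    obtain ⟨E, S, hE, hS, hS2, hsum⟩ := local_core h hR hm hWP hPT Q Z pc hL hLM hpieces Γ
      (filter_subset _ _) fun g hg a ha => (mem_filter.1 hg).2 ▸ mem_image_of_mem g ha
    have hre : Reached C P P T := fun w hw hw' => absurd hw hw'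
    have hrd := rounds h (by linarith) hm hWP (Γ := Γ) (φ := φ) (filter_subset _ _) hE hS hS2
      _ 0 rfl P subset_rfl hPT hre (fun w hw => by
        rcases Nat.eq_zero_or_pos (C.deg P T w) with h0 | h0
        · exact Or.inl h0
        · exact Or.inr ⟨by simp; omega, Or.inl hw⟩) φ
    have hfe : fam Γ P φ = Γ :=
      filter_true_of_mem fun g hg => (Setup.mem_ext.1 (mem_filter.1 hg).1).2
    rw [hfe, ← hΦ] at hrd
    refine hrd.trans ?_
    have hΦs : (Φ : ℝ) ≤ 2 * s := by rw [← hs]; exact_mod_cast hΦσ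
    have hU : unused C E S P T φ ≤ Real.exp (8 * s + 2 * Q.card + 2) := by
      rw [unused, ← Real.exp_sum]
      refine Real.exp_le_exp.2 (le_trans (sum_le_sum_of_subset_of_nonneg sdiff_subset
        fun z hz _ => ?_) (hsum.trans ?_))
      · have : (2 : ℝ) ≤ dg E z := by exact_mod_cast hS2 z hz
        linarith
      · have : ((C.roots P T).card : ℝ) ≤ 2 * s := by rw [← hs]; exact_mod_cast hRσ
        rw [hZc]
        linarith
    have hp : (2 * ll C) ^ (2 * Φ) ≤ (2 * ll C) ^ (4 * σ) :=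
      pow_le_pow_right₀ (by linarith) (by omega)
    have he : Real.exp (pot2 C P T 0 (2 * T.card + 1)) ≤ Real.exp (24 * s) :=
      Real.exp_le_exp.2 (hpot.trans (by linarith))
    have hU0 : 0 ≤ unused C E S P T φ := by unfold unused; positivity
    calc (2 * ll C) ^ (2 * Φ) * Real.exp (pot2 C P T 0 (2 * T.card + 1)) * unused C E S P T φ
        ≤ (2 * ll C) ^ (4 * σ) * Real.exp (24 * s) * Real.exp (8 * s + 2 * Q.card + 2) :=
          mul_le_mul (mul_le_mul hp he (Real.exp_pos _).le (by positivity)) hU hU0 (by positivity)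
      _ = B := by rw [hB, Real.exp_add (24 * s)]; ring
  have hcount : ((C.ext P T φ).card : ℝ) ≤ (S₁.card.choose Q.card : ℝ) * B := by
    calc ((C.ext P T φ).card : ℝ)
        = ∑ Z ∈ S₁.powersetCard Q.card,
            (((C.ext P T φ).filter fun g => Q.image g = Z).card : ℝ) := by
          rw [← Nat.cast_sum, ← card_eq_sum_card_fiberwise hinS]
      _ ≤ ∑ _Z ∈ S₁.powersetCard Q.card, B :=
          sum_le_sum fun Z hZ => hfam Z (mem_powersetCard.1 hZ).2
      _ = _ := by rw [sum_const, nsmul_eq_mul, card_powersetCard]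
  have hS₁c : (S₁.card : ℝ) ≤ 6 * ll C * (s + 1) := by
    have h1 : (S₁.card : ℝ) ≤ 2 * E₁.card := by
      have : S₁.card ≤ ∑ z ∈ S₁, dg E₁ z := by
        rw [card_eq_sum_ones]
        refine sum_le_sum fun z hz => ?_
        obtain ⟨-, e, he, hze⟩ := mem_filter.1 hz
        exact card_pos.2 ⟨e, mem_filter.2 ⟨he, hze⟩⟩
      exact_mod_cast this.trans (sum_dg_le E₁ S₁)
    have h2 : ((C.roots P T).card : ℝ) ≤ 2 * s := by rw [← hs]; exact_mod_cast hRσ
    have := mul_le_mul_of_nonneg_right h2 (show (0 : ℝ) ≤ ll C by linarith)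
    have := mul_nonneg hs0 (show (0 : ℝ) ≤ ll C by linarith)
    linarith
  set g := Real.log (ll C) with hg
  have hlp : 0 < ll C := by linarith
  have hg1 : 1 ≤ g := by
    rw [hg, Real.le_log_iff_exp_le hlp]
    linarith [Real.exp_one_lt_d9]
  have hl6 : 6 * ll C ≤ Real.exp (3 * g) := by
    rw [show 3 * g = 2 * g + g by ring, Real.exp_add, hg, Real.exp_log hlp]
    refine mul_le_mul_of_nonneg_right (le_trans ?_ (Real.exp_le_exp.2
      (show (2 : ℝ) ≤ _ by linarith))) hlp.le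
    rw [show (2 : ℝ) = 1 + 1 by norm_num, Real.exp_add]
    nlinarith [Real.exp_one_gt_d9]
  have hchoose : (S₁.card.choose Q.card : ℝ) ≤ Real.exp (3 * g * Q.card + (s + 1)) := by
    refine (Nat.choose_le_pow_div Q.card S₁.card).trans ?_
    calc (S₁.card : ℝ) ^ Q.card / Q.card.factorial
        ≤ (6 * ll C * (s + 1)) ^ Q.card / Q.card.factorial := by gcongr
      _ = (6 * ll C) ^ Q.card * ((s + 1) ^ Q.card / Q.card.factorial) := by
          rw [mul_pow]; ring
      _ ≤ Real.exp (3 * g) ^ Q.card * Real.exp (s + 1) :=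
          mul_le_mul (pow_le_pow_left₀ (by linarith) hl6 _)
            (Real.pow_div_factorial_le_exp _ (by linarith) _) (by positivity) (by positivity)
      _ = _ := by rw [← Real.exp_nat_mul, ← Real.exp_add]; ring_nf
  have hpow : (2 * ll C) ^ (4 * σ) ≤ Real.exp (12 * g * s) := by
    have hσs : (σ : ℝ) = s := hs
    refine (pow_le_pow_left₀ (by linarith) (show 2 * ll C ≤ Real.exp (3 * g) by linarith) _).trans
      (le_of_eq ?_)
    rw [← Real.exp_nat_mul]
    push_cast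
    rw [hσs]
    ring_nf
  refine hcount.trans ?_
  refine (mul_le_mul hchoose (mul_le_mul_of_nonneg_right hpow (Real.exp_pos _).le)
    (by positivity) (Real.exp_pos _).le).trans ?_
  rw [← Real.exp_add, ← Real.exp_add, Real.exp_le_exp]
  set X₀ := (rn : ℝ) * mm C / ll C with hX₀
  have hX1 : 1 ≤ 2 * X₀ := by
    rw [hX₀, ← mul_div_assoc, le_div_iff₀ hlp]
    linarith
  rw [show (rn : ℝ) * (mm C * g / ll C) = X₀ * g by rw [hX₀]; ring]
  have h1 := mul_le_mul_of_nonneg_right hmQ (show (0 : ℝ) ≤ 5 * g by linarith)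
  have h2 := mul_le_mul_of_nonneg_right hs1 (show (0 : ℝ) ≤ 55 * g by linarith)
  have h3 := mul_le_mul_of_nonneg_left hg1 (show (0 : ℝ) ≤ 33 * s + 2 * Q.card + 3 by positivity)
  have h4 := mul_le_mul_of_nonneg_right hX1 (show (0 : ℝ) ≤ 58 * g by linarith)
  have h5 := mul_nonneg (show (0 : ℝ) ≤ X₀ by linarith) (show (0 : ℝ) ≤ g by linarith)
  linarith

end Vale.Agent.P064.Sparse
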