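import Vale.Agent.P064.Sparse.Base

/-! Counting a pinned piece by walks inside a core: each walk lowers the surplus. -/

set_option linter.unusedSectionVars false

namespace Vale.Agent.P064.Sparse

open Finset

variable {α V : Type*} [Fintype α] [DecidableEq α] [Fintype V] [DecidableEq V]
variable {C : Setup α V}

/-- The surplus of the new edges over the new vertices. -/
def surplus (C : Setup α V) (P T : Finset α) : ℕ := (C.new P T).card - (T \ P).card

/-- The choices for a neighbour of `ψ w`. -/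
def opts (E : Finset (Sym2 V)) (P : Finset α) (ψ : α → V) (w : α) : Finset V :=
  univ.filter fun z => s(ψ w, z) ∈ E ∧ z ∉ P.image ψ

/-- The bound on the number of completions of a map given on part of the pattern. -/
noncomputable def walkBd (C : Setup α V) (E : Finset (Sym2 V)) (S : Finset V) (D : ℝ)
    (P T : Finset α) (ψ : α → V) : ℝ :=
  D ^ surplus C P T * ∏ z ∈ S \ P.image ψ, Real.exp ((dg E z : ℝ) - 2)

/-- Completions of maps given on part of the pattern are few. -/
theorem walk (h : C.Hyp) (hc : 1 < (C.n : ℝ) * (Real.exp 1 * C.q)) {W P₀ T : Finset α}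
    (hm : C.Margin W T) (hWP : W ⊂ P₀) (φ : α → V) (E : Finset (Sym2 V)) (S : Finset V) {D : ℝ}
    (hE : ∀ g ∈ C.ext P₀ T φ, ∀ e ∈ C.new P₀ T, e.map g ∈ E)
    (hS : ∀ g ∈ C.ext P₀ T φ, ∀ a ∈ T \ P₀, g a ∈ S)
    (h2 : ∀ z ∈ S, 2 ≤ dg E z) (hD1 : 1 ≤ D) (hD : ∀ z, (dg E z : ℝ) ≤ D) :
    ∀ k P, (T \ P).card = k → P₀ ⊆ P → P ⊆ T → ∀ ψ, (∀ a ∈ P₀, ψ a = φ a) →
      ((C.ext P T ψ).card : ℝ) ≤ walkBd C E S D P T ψ ∧
      ∀ w ∈ P, ∀ b ∈ C.nbr P T w,
        D * (C.ext P T ψ).card ≤ (opts E P ψ w).card * walkBd C E S D P T ψ := by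
  classical
  intro k
  induction k using Nat.strong_induction_on with
  | _ k ih =>
  intro P hk hP0 hPT ψ hψ
  have hD0 : (0 : ℝ) ≤ D := by linarith
  have hexp1 : ∀ z ∈ S, (1 : ℝ) ≤ Real.exp ((dg E z : ℝ) - 2) := fun z hz => by
    have : (2 : ℝ) ≤ dg E z := by exact_mod_cast h2 z hz
    exact Real.one_le_exp (by linarith)
  have hopts : ∀ (P : Finset α) (ψ : α → V) w, (opts E P ψ w).card ≤ dg E (ψ w) := fun P ψ w =>
    card_le_card_of_injOn (fun z => s(ψ w, z))
      (fun z hz => mem_filter.2 ⟨(mem_filter.1 hz).2.1, Sym2.mem_mk_left _ _⟩)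
      fun a _ b _ hab => Sym2.congr_right.1 hab
  have hbd0 : ∀ (P : Finset α) (ψ : α → V), 0 ≤ walkBd C E S D P T ψ := fun P ψ => by
    unfold walkBd; positivity
  have step : ∀ w ∈ P, ∀ b ∈ C.nbr P T w,
      D * (C.ext P T ψ).card ≤ (opts E P ψ w).card * walkBd C E S D P T ψ := by
    intro w hw b hb
    obtain ⟨hbTP, hbe⟩ := mem_filter.1 hb
    obtain ⟨hbT, hbP⟩ := mem_sdiff.1 hbTP
    set P' := insert b P with hP'def
    have hP'T : P' ⊆ T := insert_subset hbT hPT
    have hcard : (T \ P').card + 1 = (T \ P).card := by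
      rw [hP'def, sdiff_insert, card_erase_of_mem hbTP]
      have := card_pos.2 ⟨b, hbTP⟩
      omega
    have hWP' : W ⊂ P' := hWP.trans_subset (hP0.trans (subset_insert _ _))
    have hewT : s(w, b) ∈ C.new P T := Setup.mem_new.2
      ⟨Setup.mem_D.2 ⟨hbe, fun a ha => (Sym2.mem_iff.1 ha).elim (fun h => h ▸ hPT hw)
        (fun h => h ▸ hbT)⟩, b, Sym2.mem_mk_right w b, hbP⟩
    have hsplit : (C.new P T).card = (C.new P P').card + (C.new P' T).card :=
      Setup.card_new_add (C := C) (subset_insert b P) hP'T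
    have hewP' : s(w, b) ∈ C.new P P' := Setup.mem_new.2
      ⟨Setup.mem_D.2 ⟨hbe, fun a ha => (Sym2.mem_iff.1 ha).elim
        (fun h => h ▸ mem_insert_of_mem hw) (fun h => h ▸ mem_insert_self _ _)⟩,
        b, Sym2.mem_mk_right w b, hbP⟩
    have hfib : ∀ z ∈ (C.ext P T ψ).image (fun g => g b),
        z ∈ opts E P ψ w ∧
        D * ((C.ext P T ψ).filter fun g => g b = z).card ≤ walkBd C E S D P T ψ := by
      intro z hz
      obtain ⟨g, hg, rfl⟩ := mem_image.1 hz
      obtain ⟨hgT, hgP⟩ := Setup.mem_ext.1 hg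
      have hg0 : g ∈ C.ext P₀ T φ :=
        Setup.mem_ext.2 ⟨hgT, fun a ha => (hgP a (hP0 ha)).trans (hψ a ha)⟩
      have hnotin : g b ∉ P.image ψ := fun hc' => by
        obtain ⟨a, ha, hab⟩ := mem_image.1 hc'
        rw [← hgP a ha] at hab
        exact hbP ((Setup.mem_emb.1 hgT).2.1 a (hPT ha) b hbT hab ▸ ha)
      have hzS : g b ∈ S := hS g hg0 b (mem_sdiff.2 ⟨hbT, fun h' => hbP (hP0 h')⟩)
      have hopt : g b ∈ opts E P ψ w := by
        refine mem_filter.2 ⟨mem_univ _, ?_, hnotin⟩
        have := hE g hg0 _ (Setup.new_anti hP0 hewT)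
        rwa [Sym2.map_mk, hgP w hw] at this
      refine ⟨hopt, ?_⟩
      have hsub : ((C.ext P T ψ).filter fun g' => g' b = g b) ⊆ C.ext P' T g := by
        intro g' hg'
        obtain ⟨hg', hgb⟩ := mem_filter.1 hg'
        refine Setup.mem_ext.2 ⟨(Setup.mem_ext.1 hg').1, fun a ha => ?_⟩
        rcases mem_insert.1 ha with rfl | ha
        · exact hgb
        · rw [(Setup.mem_ext.1 hg').2 a ha, hgP a ha]
      have hcard' : (((C.ext P T ψ).filter fun g' => g' b = g b).card : ℝ)
          ≤ (C.ext P' T g).card := Nat.cast_le.2 (card_le_card hsub)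
      have himg : P'.image g = insert (g b) (P.image ψ) := by
        rw [hP'def, image_insert, image_congr fun a ha => hgP a ha]
      have hSsplit : insert (g b) (S \ P'.image g) = S \ P.image ψ := by
        rw [himg, sdiff_insert, insert_erase (mem_sdiff.2 ⟨hzS, hnotin⟩)]
      have hprod : ∏ z ∈ S \ P.image ψ, Real.exp ((dg E z : ℝ) - 2)
          = Real.exp ((dg E (g b) : ℝ) - 2)
            * ∏ z ∈ S \ P'.image g, Real.exp ((dg E z : ℝ) - 2) := by
        rw [← hSsplit, prod_insert]
        intro hc'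
        exact (mem_sdiff.1 hc').2 (mem_image_of_mem g (mem_insert_self b P))
      have hprod0 : 0 ≤ ∏ z ∈ S \ P'.image g, Real.exp ((dg E z : ℝ) - 2) := by positivity
      have hP'0 : P₀ ⊆ P' := hP0.trans (subset_insert _ _)
      have hφ' : ∀ a ∈ P₀, g a = φ a := fun a ha => (hgP a (hP0 ha)).trans (hψ a ha)
      obtain ⟨ihA, ihB⟩ := ih (T \ P').card (by omega) P' rfl hP'0 hP'T g hφ'
      have hreach : (T \ P').card ≤ (C.new P' T).card := Setup.reach h hm hgT _ _ rfl hWP' hP'T
      have hone : 1 ≤ (C.new P P').card := card_pos.2 ⟨_, hewP'⟩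
      rcases (C.nbr P' T b).eq_empty_or_nonempty with hnb | ⟨b', hb'⟩
      · have hkb : 2 ≤ (C.new P P').card := by
          refine (deg_two h hc hm (hWP.trans_subset hP0) hPT hbTP).trans (card_le_card fun e he => ?_)
          obtain ⟨he, hbe'⟩ := mem_filter.1 he
          refine Setup.mem_new.2 ⟨Setup.mem_D.2 ⟨(Setup.mem_D.1 (Setup.mem_new.1 he).1).1,
            fun a ha => ?_⟩, b, hbe', hbP⟩
          by_contra haP
          have haT := (Setup.mem_D.1 (Setup.mem_new.1 he).1).2 a ha
          have hab : a ≠ b := fun h' => haP (h' ▸ mem_insert_self b P)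
          have : e = s(b, a) := (Sym2.mem_and_mem_iff hab.symm).1 ⟨hbe', ha⟩
          have : a ∈ C.nbr P' T b := mem_filter.2 ⟨mem_sdiff.2 ⟨haT, haP⟩,
            this ▸ (Setup.mem_D.1 (Setup.mem_new.1 he).1).1⟩
          rw [hnb] at this
          exact notMem_empty a this
        have hσ : surplus C P' T + 1 ≤ surplus C P T := by
          simp only [surplus]; omega
        calc D * ((C.ext P T ψ).filter fun g' => g' b = g b).card
            ≤ D * walkBd C E S D P' T g := by
              exact mul_le_mul_of_nonneg_left (hcard'.trans ihA) hD0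
          _ = D ^ (surplus C P' T + 1) * (1 * ∏ z ∈ S \ P'.image g,
                Real.exp ((dg E z : ℝ) - 2)) := by rw [walkBd, pow_succ]; ring
          _ ≤ D ^ surplus C P T * (Real.exp ((dg E (g b) : ℝ) - 2) * ∏ z ∈ S \ P'.image g,
                Real.exp ((dg E z : ℝ) - 2)) := by
              refine mul_le_mul (pow_le_pow_right₀ hD1 hσ)
                (mul_le_mul_of_nonneg_right (hexp1 _ hzS) hprod0) ?_ (pow_nonneg hD0 _)
              rw [one_mul]; exact hprod0
          _ = _ := by rw [walkBd, hprod]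
      · have hlt : (opts E P' g b).card + 1 ≤ dg E (g b) := by
          have hwmem : s(g b, g w) ∈ E := by
            have := hE g hg0 _ (Setup.new_anti hP0 hewT)
            rwa [Sym2.map_mk, Sym2.eq_swap] at this
          have hnot : g w ∉ opts E P' g b := fun h' =>
            (mem_filter.1 h').2.2 (mem_image_of_mem g (mem_insert_of_mem hw))
          rw [← card_insert_of_notMem hnot]
          refine card_le_card_of_injOn (fun z => s(g b, z)) (fun z hz => ?_)
            fun a _ b _ hab => Sym2.congr_right.1 hab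
          rcases mem_insert.1 hz with rfl | hz
          · exact mem_filter.2 ⟨hwmem, Sym2.mem_mk_left _ _⟩
          · exact mem_filter.2 ⟨(mem_filter.1 hz).2.1, Sym2.mem_mk_left _ _⟩
        have hopt' : ((opts E P' g b).card : ℝ) ≤ Real.exp ((dg E (g b) : ℝ) - 2) := by
          have := Real.add_one_le_exp ((dg E (g b) : ℝ) - 2)
          have : ((opts E P' g b).card : ℝ) + 1 ≤ dg E (g b) := by exact_mod_cast hlt
          linarith
        have hσ : surplus C P' T ≤ surplus C P T := by
          simp only [surplus]; omega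
        calc D * ((C.ext P T ψ).filter fun g' => g' b = g b).card
            ≤ D * (C.ext P' T g).card := mul_le_mul_of_nonneg_left hcard' hD0
          _ ≤ (opts E P' g b).card * walkBd C E S D P' T g :=
              ihB b (mem_insert_self b P) b' hb'
          _ ≤ Real.exp ((dg E (g b) : ℝ) - 2) * (D ^ surplus C P T * ∏ z ∈ S \ P'.image g,
                Real.exp ((dg E z : ℝ) - 2)) := by
              refine mul_le_mul hopt' ?_ (hbd0 _ _) (Real.exp_pos _).le
              exact mul_le_mul_of_nonneg_right (pow_le_pow_right₀ hD1 hσ) hprod0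
          _ = _ := by rw [walkBd, hprod]; ring
    calc D * ((C.ext P T ψ).card : ℝ)
        = ∑ z ∈ (C.ext P T ψ).image (fun g => g b),
            D * (((C.ext P T ψ).filter fun g => g b = z).card : ℝ) := by
          rw [← mul_sum, ← Nat.cast_sum, ← card_eq_sum_card_image]
      _ ≤ ∑ _z ∈ (C.ext P T ψ).image (fun g => g b), walkBd C E S D P T ψ :=
          sum_le_sum fun z hz => (hfib z hz).2
      _ ≤ _ := by
          rw [sum_const, nsmul_eq_mul]
          exact mul_le_mul_of_nonneg_right
            (Nat.cast_le.2 (card_le_card fun z hz => (hfib z hz).1)) (hbd0 _ _)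
  refine ⟨?_, step⟩
  rcases Setup.ext_eq_empty_or (C := C) (P := P) (T := T) (φ := ψ) with h0 | ⟨g, hg⟩
  · rw [h0, card_empty, Nat.cast_zero]
    exact hbd0 _ _
  by_cases hPeq : P = T
  · subst hPeq
    refine le_trans (Nat.cast_le.2 (Setup.ext_self_card P ψ)) ?_
    rw [Nat.cast_one, walkBd]
    refine one_le_mul_of_one_le_of_one_le (one_le_pow₀ hD1) (one_le_prod ?_)
    exact fun z hz => hexp1 z (mem_sdiff.1 hz).1
  obtain ⟨w, hw⟩ := Setup.roots_nonempty h hm (hWP.trans_subset hP0) hPT hPeq hg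
  obtain ⟨hwP, hd⟩ := (Setup.mem_roots hPT).1 hw
  obtain ⟨b, hb⟩ := card_pos.1 hd
  have := step w hwP b hb
  refine le_of_mul_le_mul_left (this.trans ?_) (show (0 : ℝ) < D by linarith)
  refine mul_le_mul_of_nonneg_right ?_ (hbd0 _ _)
  exact le_trans (by exact_mod_cast hopts P ψ w) (hD _)

end Vale.Agent.P064.Sparse
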