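import Vale.Agent.P064.Sparse.Cluster
import Vale.Agent.P064.Sparse.Walk
import Vale.Agent.P064.Sparse.Marked

/-! One chunk in the sparse regime costs a bounded factor per edge. -/

set_option linter.unusedSectionVars false

namespace Vale.Agent.P064.Sparse

open Finset

variable {α V : Type*} [Fintype α] [DecidableEq α] [Fintype V] [DecidableEq V]
variable {C : Setup α V}

/-- The loss per edge. -/
noncomputable def rate (C : Setup α V) : ℝ :=
  Real.exp (400 * (1 + mm C * Real.log (ll C) / ll C))

/-- A pinned piece has few completions. -/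
lemma pinned (h : C.Hyp) (hR : Range C) {W T : Finset α}
    (hWT : W ⊂ T) (hm : C.Margin W T) (hr : 1 ≤ (C.new W T).card)
    (hclose : (((C.new W T).card : ℝ) - (T \ W).card) * ll C ≤ (C.new W T).card * mm C)
    (φ : α → V) {u : α} (hu : u ∈ T \ W) (z : V) :
    (((C.ext W T φ).filter fun g => g u = z).card : ℝ)
      ≤ Real.exp (15 * (C.new W T).card
        + 340 * ((C.new W T).card * (mm C * Real.log (ll C) / ll C))) := by
  classical
  obtain ⟨hM, hl4, hc4⟩ := range_facts h hR
  set r := ((C.new W T).card : ℝ) with hrdef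
  have hr1 : 1 ≤ r := Nat.one_le_cast.2 hr
  set X := r * (mm C * Real.log (ll C) / ll C) with hX
  have hlog0 : 0 ≤ Real.log (ll C) := Real.log_nonneg (by linarith)
  have hX0 : 0 ≤ X := mul_nonneg (by linarith)
    (div_nonneg (mul_nonneg (by linarith) hlog0) (by linarith))
  rcases ((C.ext W T φ).filter fun g => g u = z).eq_empty_or_nonempty with h0 | ⟨g1, hg1⟩
  · rw [h0, card_empty, Nat.cast_zero]; positivity
  obtain ⟨hg1, hg1u⟩ := mem_filter.1 hg1
  set P := insert u W with hPdef
  have hPT : P ⊆ T := insert_subset (mem_sdiff.1 hu).1 hWT.subset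
  have hWP : W ⊂ P := ssubset_insert (mem_sdiff.1 hu).2
  have hsub : ((C.ext W T φ).filter fun g => g u = z) ⊆ C.ext P T g1 := by
    intro g hg
    obtain ⟨hg, hgu⟩ := mem_filter.1 hg
    refine Setup.mem_ext.2 ⟨(Setup.mem_ext.1 hg).1, fun a ha => ?_⟩
    rcases mem_insert.1 ha with rfl | ha
    · rw [hgu, hg1u]
    · rw [(Setup.mem_ext.1 hg).2 a ha, (Setup.mem_ext.1 hg1).2 a ha]
  refine (Nat.cast_le.2 (card_le_card hsub)).trans ?_
  obtain ⟨E, S, ρ, hE, hS, hS2, hEH, hsum, hdeg, hρ, hρsmall⟩ := core h hR hm hWP hPT g1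
  set r' := (C.new P T).card with hr'
  set s := surplus C P T with hs
  have hreach : (T \ P).card ≤ r' :=
    Setup.reach h hm (Setup.mem_ext.1 hg1).1 _ _ rfl hWP hPT
  have hcardP : (T \ P).card + 1 = (T \ W).card := by
    rw [hPdef, sdiff_insert, card_erase_of_mem hu]
    have := card_pos.2 ⟨u, hu⟩
    omega
  have hr'le : r' ≤ (C.new W T).card := card_le_card (Setup.new_anti hWP.subset)
  have hRs : (C.roots P T).card ≤ 2 * s := by
    have := roots_le h (ec_gt h hR) hm hWP hPT
    simp only [hs, surplus]; omega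
  have hs1 : (s : ℝ) ≤ r - (T \ W).card + 1 := by
    have : s + (T \ P).card = r' := by simp only [hs, surplus]; omega
    have h1 : (s : ℝ) + (T \ P).card = r' := by exact_mod_cast this
    have h2 : ((T \ P).card : ℝ) + 1 = (T \ W).card := by exact_mod_cast hcardP
    have h3 : (r' : ℝ) ≤ r := Nat.cast_le.2 hr'le
    linarith
  have hρ0 : 0 ≤ ρ := by
    have h0 := sum_nonneg (s := S) (f := fun z => (dg E z : ℝ) - 2) fun z hz => by
      have : (2 : ℝ) ≤ dg E z := by exact_mod_cast hS2 z hz
      linarith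
    linarith
  have hwalk : ∀ D : ℝ, 1 ≤ D → (∀ z, (dg E z : ℝ) ≤ D) →
      ((C.ext P T g1).card : ℝ) ≤ D ^ s * Real.exp (2 * ρ) := by
    intro D hD1 hD
    refine ((walk h (ec_gt h hR) hm hWP g1 E S hE hS hS2 hD1 hD _ P rfl subset_rfl hPT g1
      fun a _ => rfl).1).trans ?_
    refine mul_le_mul_of_nonneg_left ?_ (pow_nonneg (by linarith) _)
    rw [← Real.exp_sum]
    refine Real.exp_le_exp.2 (le_trans ?_ hsum)
    refine sum_le_sum_of_subset_of_nonneg sdiff_subset fun z hz _ => ?_
    have : (2 : ℝ) ≤ dg E z := by exact_mod_cast hS2 z hz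
    linarith
  by_cases hA : 2 * r * mm C ≤ ll C
  · have hsle : s ≤ 1 := by
      have h1 : ((C.new W T).card : ℝ) - (T \ W).card ≤ 1 / 2 := by
        by_contra hc
        nlinarith [mul_lt_mul_of_pos_right (not_le.1 hc) (show (0 : ℝ) < ll C by linarith)]
      have : (s : ℝ) < 2 := by linarith
      exact_mod_cast Nat.lt_succ_iff.1 (show s < 2 by exact_mod_cast this)
    have hR2 : ((C.roots P T).card : ℝ) ≤ 2 := by exact_mod_cast hRs.trans (by omega)
    have hρ6 : ρ ≤ 6 := by
      refine (hρsmall (le_trans ?_ hA)).trans (by linarith)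
      have : (r' : ℝ) ≤ r := Nat.cast_le.2 hr'le
      have : (0 : ℝ) ≤ mm C := by linarith
      gcongr
    refine (hwalk 14 (by norm_num) fun z => (hdeg z).trans (by linarith)).trans ?_
    have h14 : (14 : ℝ) ^ s ≤ Real.exp 3 := by
      refine le_trans (pow_le_pow_right₀ (by norm_num) hsle) ?_
      rw [pow_one, show (3 : ℝ) = 1 + 1 + 1 by norm_num, Real.exp_add, Real.exp_add]
      nlinarith [Real.exp_one_gt_d9, mul_le_mul Real.exp_one_gt_d9.le Real.exp_one_gt_d9.le
        (by norm_num) (Real.exp_pos 1).le]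
    refine (mul_le_mul_of_nonneg_right h14 (Real.exp_pos _).le).trans ?_
    rw [← Real.exp_add, Real.exp_le_exp]
    linarith
  · refine (marked h hR hm hWP hPT g1 hr'le (s := (s : ℝ)) rfl ?_ (not_le.1 hA).le).trans
      (Real.exp_le_exp.2 ?_)
    · refine le_of_mul_le_mul_right ?_ (show (0 : ℝ) < ll C by linarith)
      rw [← hrdef, add_mul, one_mul, div_mul_cancel₀ _ (show ll C ≠ 0 by linarith)]
      have := mul_le_mul_of_nonneg_right hs1 (show (0 : ℝ) ≤ ll C by linarith)
      linarith
    · linarith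

/-- One chunk has few extensions. -/
theorem chunk (h : C.Hyp) (hR : Range C) {W T : Finset α}
    (hWT : W ⊂ T) (hm : C.Margin W T)
    (hcl : W = ∅ ∨ 1 ≤ (C.n : ℝ) ^ (T \ W).card * (Real.exp 1 * C.q) ^ (C.new W T).card)
    (hdeg : ∀ a ∈ T \ W, ∃ e ∈ C.new W T, a ∈ e) (φ : α → V) :
    ((C.ext W T φ).card : ℝ)
      ≤ (C.n : ℝ) ^ (T \ W).card * (rate C * C.q) ^ (C.new W T).card := by
  classical
  obtain ⟨hM, hl4, hc4⟩ := range_facts h hR
  have hn0 : (0 : ℝ) < C.n := lt_of_lt_of_le one_pos h.n1
  set y := (T \ W).card with hy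
  set rn := (C.new W T).card with hrn
  set x := (C.n : ℝ) ^ y * C.q ^ rn with hx
  have hxpos : 0 < x := mul_pos (pow_pos hn0 _) (pow_pos h.q0 _)
  obtain ⟨y0, hy0⟩ : (T \ W).Nonempty := sdiff_nonempty.2 fun h' => hWT.2 h'
  have hr1 : 1 ≤ rn := by
    obtain ⟨e, he, -⟩ := hdeg y0 hy0
    exact card_pos.2 ⟨e, he⟩
  have hy2 : y ≤ 2 * rn := by
    refine le_trans ?_ (Setup.sum_deg_le (C := C) (W := W) (T := T) (T \ W))
    rw [hy, card_eq_sum_ones]
    refine sum_le_sum fun a ha => ?_
    obtain ⟨e, he, hae⟩ := hdeg a ha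
    exact card_pos.2 ⟨e, mem_filter.2 ⟨he, hae⟩⟩
  rcases Setup.ext_eq_empty_or (C := C) (P := W) (T := T) (φ := φ) with h0 | ⟨g0, hg0⟩
  · rw [h0, card_empty, Nat.cast_zero]
    have := h.q0
    unfold rate
    positivity
  obtain ⟨hg0T, hg0W⟩ := Setup.mem_ext.1 hg0
  set r := (rn : ℝ) with hrdef
  have hr : 1 ≤ r := Nat.one_le_cast.2 hr1
  set X := r * (mm C * Real.log (ll C) / ll C) with hX
  have hlog0 : 0 ≤ Real.log (ll C) := Real.log_nonneg (by linarith)
  have hX0 : 0 ≤ X := mul_nonneg (by linarith)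
    (div_nonneg (mul_nonneg (by linarith) hlog0) (by linarith))
  have hclose : (r - y) * ll C ≤ r * mm C := by
    rcases hcl with hW | hcl
    · subst hW
      have hone := hyp_lin h (T.image g0) ((C.new ∅ T).image fun e => e.map g0)
        (fun e' he' => by
          obtain ⟨e, he, rfl⟩ := mem_image.1 he'
          exact (Setup.mem_emb.1 hg0T).2.2 e (Setup.mem_new.1 he).1)
        (fun e' he' a ha => by
          obtain ⟨e, he, rfl⟩ := mem_image.1 he'
          obtain ⟨b, hb, rfl⟩ := Sym2.mem_map.1 ha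
          exact mem_image_of_mem _ ((Setup.mem_D.1 (Setup.mem_new.1 he).1).2 b hb))
      rw [card_image_of_injOn fun e he e' he' => Setup.map_injOn hg0T e
          (Setup.mem_new.1 he).1 e' (Setup.mem_new.1 he').1,
        card_image_of_injOn fun a ha b hb => (Setup.mem_emb.1 hg0T).2.1 a ha b hb] at hone
      rw [hy, sdiff_empty]
      linarith [Real.log_two_lt_d9]
    · have := Real.log_nonneg hcl
      have hx' : 0 < Real.exp 1 * C.q := mul_pos (Real.exp_pos 1) h.q0
      rw [Real.log_mul (pow_pos hn0 _).ne' (pow_pos hx' _).ne', Real.log_pow, Real.log_pow,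
        log_eq h, ← hrdef] at this
      change 0 ≤ (y : ℝ) * ll C + _ at this
      linarith
  obtain ⟨𝒮, h𝒮sub, hdis, hcount⟩ := cover_count φ hy0 (P := Real.exp (15 * r + 340 * X))
    (Real.exp_pos _).le (fun u hu z => pinned h hR hWT hm hr1 hclose φ hu z)
  have hfact := disjoint_family h hWT.subset h𝒮sub hy0 hdis
  obtain ⟨hk0, hkR⟩ := count_bound h.n1 hxpos hfact
  have he2 : Real.exp 1 ^ 2 = Real.exp 2 := by rw [← Real.exp_nat_mul]; norm_num
  have hk : (𝒮.card : ℝ) ≤ x * Real.exp (4 * r + 2 * X) := by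
    rcases Nat.eq_zero_or_pos (C.roots W T).card with hR0 | hR0
    · refine (hk0 hR0).trans ?_
      rw [mul_comm x]
      refine mul_le_mul_of_nonneg_right ?_ hxpos.le
      have : 2 * Real.exp 1 ≤ Real.exp 1 * Real.exp 1 := by
        nlinarith [Real.exp_one_gt_d9]
      refine this.trans ?_
      rw [← Real.exp_add, Real.exp_le_exp]
      linarith
    have hk1 : (𝒮.card : ℝ) ≤ Real.exp 2 * x + 2 * r * ll C := by
      refine (hkR hR0).trans ?_
      rw [he2]
      have hRr : ((C.roots W T).card : ℝ) ≤ r := Nat.cast_le.2 roots_card_le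
      have := mul_le_mul hRr (show 1 + ll C ≤ 2 * ll C by linarith) (by linarith) (by linarith)
      change _ + _ * (1 + ll C) ≤ _
      linarith
    refine hk1.trans ?_
    by_cases hry : rn ≤ y
    · have hxl : ll C ≤ x := by
        refine hR.low.trans ?_
        calc (C.n : ℝ) * C.q ≤ ((C.n : ℝ) * C.q) ^ rn :=
              le_self_pow₀ (by linarith) (by omega)
          _ ≤ x := by
              rw [hx, mul_pow]
              exact mul_le_mul_of_nonneg_right (pow_le_pow_right₀ h.n1 hry) (pow_nonneg h.q0.le _)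
      have h1 : Real.exp 2 + 2 * r ≤ Real.exp (4 * r + 2 * X) := by
        refine le_trans ?_ (Real.exp_le_exp.2 (show 2 * r + 2 ≤ _ by linarith))
        rw [Real.exp_add]
        have := Real.add_one_le_exp (2 * r)
        nlinarith [mul_le_mul_of_nonneg_right this (Real.exp_pos 2).le, Real.add_one_le_exp (2 : ℝ)]
      have := mul_le_mul_of_nonneg_left h1 hxpos.le
      have := mul_le_mul_of_nonneg_left hxl (show (0 : ℝ) ≤ 2 * r by linarith)
      linarith
    · have hyr : (y : ℝ) + 1 ≤ r := by rw [hrdef]; exact_mod_cast (Nat.succ_le_of_lt (not_le.1 hry))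
      have hlM : ll C ≤ r * mm C := le_trans
        (le_mul_of_one_le_left (by linarith) (by linarith)) hclose
      have hlexp : ll C ≤ Real.exp X := by
        rw [← Real.log_le_iff_le_exp (by linarith)]
        refine le_of_mul_le_mul_right ?_ (show (0 : ℝ) < ll C by linarith)
        rw [hX, show r * (mm C * Real.log (ll C) / ll C) * ll C
          = r * mm C * Real.log (ll C) * (ll C / ll C) by ring, div_self (by linarith), mul_one,
          mul_comm (Real.log (ll C)) (ll C)]
        exact mul_le_mul_of_nonneg_right hlM hlog0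
      have hx1 : 1 ≤ x * Real.exp r := by
        rcases hcl with hW | hcl
        · obtain ⟨w, hw⟩ := card_pos.1 hR0
          have := (mem_filter.1 hw).1
          simp [hW] at this
        · rw [hx, ← Real.exp_one_pow]
          calc (1 : ℝ) ≤ (C.n : ℝ) ^ y * (Real.exp 1 * C.q) ^ rn := hcl
            _ = _ := by rw [mul_pow]; ring
      have h1 : Real.exp 2 + Real.exp r * (2 * r * Real.exp X)
          ≤ Real.exp (4 * r + 2 * X) := by
        have h2r : 2 * r ≤ Real.exp r := by
          have := Real.two_mul_le_exp (x := r)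
          exact this
        have ha : Real.exp r * (2 * r * Real.exp X) ≤ Real.exp (2 * r + X) := by
          rw [show 2 * r + X = r + (r + X) by ring, Real.exp_add r, Real.exp_add r]
          gcongr
        have hb : Real.exp 2 ≤ Real.exp (2 * r + X) := Real.exp_le_exp.2 (by linarith)
        have hc : Real.exp (2 * r + X) * 2 ≤ Real.exp (2 * r + X) * Real.exp 1 :=
          mul_le_mul_of_nonneg_left (by linarith [Real.add_one_le_exp (1 : ℝ)]) (Real.exp_pos _).le
        rw [← Real.exp_add] at hc
        linarith [Real.exp_le_exp.2 (show 2 * r + X + 1 ≤ 4 * r + 2 * X by linarith)]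
      have hsecond : 2 * r * ll C ≤ x * (Real.exp r * (2 * r * Real.exp X)) := by
        calc 2 * r * ll C ≤ 1 * (2 * r * Real.exp X) := by
              rw [one_mul]; exact mul_le_mul_of_nonneg_left hlexp (by linarith)
          _ ≤ (x * Real.exp r) * (2 * r * Real.exp X) :=
              mul_le_mul_of_nonneg_right hx1 (by positivity)
          _ = _ := by ring
      have := mul_le_mul_of_nonneg_left h1 hxpos.le
      linarith
  have hy4 : (y : ℝ) ^ 2 ≤ Real.exp (4 * r) := by
    have h1 : (y : ℝ) ≤ 2 * r := by rw [hrdef]; exact_mod_cast hy2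
    have h2 : 2 * r ≤ Real.exp (2 * r) := by linarith [Real.add_one_le_exp (2 * r)]
    refine (pow_le_pow_left₀ (Nat.cast_nonneg y) (h1.trans h2) 2).trans (le_of_eq ?_)
    rw [← Real.exp_nat_mul]; congr 1; push_cast; ring
  calc ((C.ext W T φ).card : ℝ)
      ≤ (y : ℝ) ^ 2 * 𝒮.card * Real.exp (15 * r + 340 * X) := hcount
    _ ≤ Real.exp (4 * r) * (x * Real.exp (4 * r + 2 * X)) * Real.exp (15 * r + 340 * X) := by
        gcongr
    _ = x * (Real.exp (4 * r) * Real.exp (4 * r + 2 * X) * Real.exp (15 * r + 340 * X)) := by ring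
    _ = x * Real.exp (23 * r + 342 * X) := by
        rw [← Real.exp_add, ← Real.exp_add]
        congr 2
        ring
    _ ≤ x * Real.exp (400 * r + 400 * X) :=
        mul_le_mul_of_nonneg_left (Real.exp_le_exp.2 (by linarith)) hxpos.le
    _ = _ := by
        have : Real.exp (400 * r + 400 * X) = rate C ^ rn := by
          rw [rate, ← Real.exp_nat_mul]
          congr 1
          rw [hX, hrdef]
          ring
        rw [this, hx, mul_pow]
        ring

/-- The counting theorem in relative form. -/
theorem ext_bound (h : C.Hyp) (hR : Range C) (X : Finset α) : ∀ k W, (X \ W).card = k → W ⊆ X →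
    (W = ∅ ∨ ∀ S, W ⊆ S → S ⊆ X → C.weight W ≤ C.weight S) → ∀ φ,
    ((C.ext W X φ).card : ℝ)
      ≤ (C.n : ℝ) ^ (X \ W).card * (rate C * C.q) ^ (C.new W X).card := by
  classical
  intro k
  induction k using Nat.strong_induction_on with
  | _ k ih =>
    intro W hk hWX hclosed φ
    have hn0 : (0 : ℝ) < C.n := by linarith [h.n1]
    have hΛ0 : 0 < rate C := Real.exp_pos _
    have hb0 : 0 < rate C * C.q := mul_pos hΛ0 h.q0
    by_cases hne : W = X
    · subst hne
      have h0 : C.new W W = ∅ := Finset.sdiff_self _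
      rw [h0, Finset.sdiff_self, card_empty, card_empty, pow_zero, pow_zero, one_mul]
      exact_mod_cast Setup.ext_self_card W φ
    have hWX' : W ⊂ X := hWX.ssubset_of_ne hne
    obtain ⟨T, hT, hTmin⟩ := exists_min_image (X.powerset.filter fun S => W ⊂ S) C.weight
      ⟨X, mem_filter.2 ⟨mem_powerset.2 subset_rfl, hWX'⟩⟩
    obtain ⟨hTX', hWT⟩ := mem_filter.1 hT
    have hTX := mem_powerset.1 hTX'
    have hwpos : ∀ S, 0 < C.weight S := fun S =>
      mul_pos (pow_pos hn0 _) (pow_pos (mul_pos (Real.exp_pos _) h.q0) _)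
    have hm : C.Margin W T := by
      intro P hWP hPT
      have := hTmin P (mem_filter.2 ⟨mem_powerset.2 (hPT.trans hTX), hWP⟩)
      rw [weight_split hPT] at this
      exact le_of_mul_le_mul_left (this.trans_eq (mul_one _).symm) (hwpos P)
    have hclosedT : ∀ S, T ⊆ S → S ⊆ X → C.weight T ≤ C.weight S := fun S hTS hSX =>
      hTmin S (mem_filter.2 ⟨mem_powerset.2 hSX, hWT.trans_subset hTS⟩)
    have hchunk : ∀ ψ, ((C.ext W T ψ).card : ℝ)
        ≤ (C.n : ℝ) ^ (T \ W).card * (rate C * C.q) ^ (C.new W T).card := by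
      intro ψ
      by_cases hdeg : ∀ a ∈ T \ W, ∃ e ∈ C.new W T, a ∈ e
      · refine chunk h hR hWT hm ?_ hdeg ψ
        rcases hclosed with hW | hcl
        · exact Or.inl hW
        · right
          have := hcl T hWT.subset hTX
          rw [weight_split hWT.subset] at this
          exact le_of_mul_le_mul_left ((mul_one _).trans_le this) (hwpos W)
      · simp only [not_forall] at hdeg
        obtain ⟨a, ha, hae⟩ := hdeg
        obtain ⟨haT, haW⟩ := mem_sdiff.1 ha
        have hD : ∀ e ∈ C.D T, a ∉ e := fun e he hae' =>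
          hae ⟨e, Setup.mem_new.2 ⟨he, a, hae', haW⟩, hae'⟩
        have hT1 : T.erase a = W := by
          by_contra hne'
          have hsub : W ⊂ T.erase a :=
            (subset_erase.2 ⟨hWT.subset, haW⟩).ssubset_of_ne (Ne.symm hne')
          have := hm (T.erase a) hsub (erase_subset a T)
          have h0 : C.new (T.erase a) T = ∅ := by
            refine sdiff_eq_empty_iff_subset.2 fun e he => Setup.mem_D.2
              ⟨(Setup.mem_D.1 he).1, fun b hb => mem_erase.2 ⟨?_, (Setup.mem_D.1 he).2 b hb⟩⟩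
            rintro rfl
            exact hD e he hb
          have h1 : (T \ T.erase a).card = 1 := by
            rw [card_sdiff_of_subset (erase_subset a T), card_erase_of_mem haT]
            have := card_pos.2 ⟨a, haT⟩
            omega
          rw [h0, card_empty, pow_zero, mul_one, h1, pow_one] at this
          have : (2 : ℝ) ≤ C.n := by exact_mod_cast h.nn
          linarith
        have h0 : C.new W T = ∅ := by
          refine sdiff_eq_empty_iff_subset.2 fun e he => Setup.mem_D.2
            ⟨(Setup.mem_D.1 he).1, fun b hb => ?_⟩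
          rw [← hT1]
          refine mem_erase.2 ⟨?_, (Setup.mem_D.1 he).2 b hb⟩
          rintro rfl
          exact hD e he hb
        have h1 : (T \ W).card = 1 := by
          rw [← hT1, card_sdiff_of_subset (erase_subset a T), card_erase_of_mem haT]
          have := card_pos.2 ⟨a, haT⟩
          omega
        rw [h0, h1, card_empty, pow_zero, mul_one, pow_one]
        refine Nat.cast_le.2 (le_trans ?_ ((card_univ (α := V)).trans_le h.hcard))
        refine card_le_card_of_injOn (fun g => g a) (fun g _ => mem_univ _) fun g hg g' hg' hgg => ?_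
        obtain ⟨hgT, hgW⟩ := Setup.mem_ext.1 hg
        obtain ⟨hgT', hgW'⟩ := Setup.mem_ext.1 hg'
        funext b
        by_cases hba : b = a
        · subst hba; exact hgg
        by_cases hbT : b ∈ T
        · have hbW : b ∈ W := hT1 ▸ mem_erase.2 ⟨hba, hbT⟩
          rw [hgW b hbW, hgW' b hbW]
        · rw [(Setup.mem_emb.1 hgT).1 b hbT, (Setup.mem_emb.1 hgT').1 b hbT]
    have hlt : (X \ T).card < k := by
      rw [← hk, card_sdiff_add_sdiff hWT.subset hTX]
      have : 0 < (T \ W).card := card_pos.2 (sdiff_nonempty.2 hWT.2)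
      omega
    have hrec := ih _ hlt T rfl hTX (Or.inr hclosedT)
    calc ((C.ext W X φ).card : ℝ)
        ≤ ∑ ψ ∈ C.ext W T φ, ((C.ext T X ψ).card : ℝ) := by
          exact_mod_cast Setup.ext_card_le_sum hWT.subset hTX φ
      _ ≤ (C.ext W T φ).card
            * ((C.n : ℝ) ^ (X \ T).card * (rate C * C.q) ^ (C.new T X).card) := by
          rw [← nsmul_eq_mul]
          exact sum_le_card_nsmul _ _ _ fun ψ _ => hrec ψ
      _ ≤ (C.n : ℝ) ^ (T \ W).card * (rate C * C.q) ^ (C.new W T).card
            * ((C.n : ℝ) ^ (X \ T).card * (rate C * C.q) ^ (C.new T X).card) :=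
          mul_le_mul_of_nonneg_right (hchunk φ) (by positivity)
      _ = _ := by
          rw [card_sdiff_add_sdiff hWT.subset hTX, Setup.card_new_add hWT.subset hTX,
            pow_add, pow_add]
          ring

/-- The number of embeddings of the pattern. -/
theorem emb_bound (h : C.Hyp) (hR : Range C) (X : Finset α) :
    ((C.emb X).card : ℝ) ≤ (C.n : ℝ) ^ X.card * (rate C * C.q) ^ (C.D X).card := by
  have h1 := ext_bound h hR X _ ∅ rfl (empty_subset X) (Or.inl rfl) (fun _ => C.v0)
  have h2 : C.ext ∅ X (fun _ => C.v0) = C.emb X :=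
    filter_true_of_mem fun g _ a ha => absurd ha (notMem_empty a)
  have h3 : (C.new ∅ X) = C.D X := by
    refine sdiff_eq_self_of_disjoint (disjoint_left.2 fun e _ he => ?_)
    have := (Setup.mem_D.1 he).2 _ (Sym2.out_fst_mem e)
    exact absurd this (notMem_empty _)
  rwa [h2, h3, sdiff_empty] at h1

end Vale.Agent.P064.Sparse
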