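import Vale.Agent.P064.Sparse.Base

/-! The core of the cluster of a pinned piece in the sparse regime. -/

set_option linter.unusedSectionVars false

namespace Vale.Agent.P064.Sparse

open Finset

variable {α V : Type*} [Fintype α] [DecidableEq α] [Fintype V] [DecidableEq V]
variable {C : Setup α V}

/-- Extensions of a fixed map lie in a set of host edges with few edges per unit of surplus. -/
lemma cluster2 (h : C.Hyp) (hR : Range C) {W P T : Finset α} (hm : C.Margin W T) (hWP : W ⊂ P)
    (hPT : P ⊆ T) {φ : α → V} :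
    ∃ E : Finset (Sym2 V), (∀ g ∈ C.ext P T φ, ∀ e ∈ C.new P T, e.map g ∈ E)
      ∧ E ⊆ C.EH ∧ (E.card : ℝ) ≤ 1 + (C.roots P T).card * ll C
      ∧ (2 * ((C.new P T).card : ℝ) * mm C ≤ ll C →
          (E.card : ℝ) * mm C ≤ 1 + (C.roots P T).card * ll C) := by
  classical
  have hn1 := h.n1
  have hn0 : (0 : ℝ) < C.n := by linarith
  set x := Real.exp 1 * C.q with hx
  have hx0 : 0 < x := mul_pos (Real.exp_pos 1) h.q0
  set good := fun U : Finset V × Finset (Sym2 V) => U.2 ⊆ C.EH
    ∧ (C.roots P T).image φ ⊆ U.1 ∧ (∀ e ∈ U.2, ∀ a ∈ e, a ∈ U.1)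
    ∧ (C.n : ℝ) ^ U.1.card * x ^ U.2.card ≤ (C.n : ℝ) ^ (C.roots P T).card
    ∧ U.2.card + (C.new P T).card * U.1.card
        ≤ (C.new P T).card * (U.2.card + (C.roots P T).card) with hgood
  have hne : (univ.filter good).Nonempty := by
    refine ⟨((C.roots P T).image φ, ∅), mem_filter.2 ⟨mem_univ _, empty_subset _, subset_rfl,
      by simp, ?_, ?_⟩⟩
    · simp only [card_empty, pow_zero, mul_one]
      exact pow_le_pow_right₀ hn1 card_image_le
    · simp only [card_empty, zero_add]
      exact Nat.mul_le_mul_left _ card_image_le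
  obtain ⟨⟨A, E⟩, hU, hmax⟩ := exists_max_image (univ.filter good) (fun U => U.2.card) hne
  obtain ⟨-, hEH, hRA, hEA, hbound, hsur⟩ := mem_filter.1 hU
  simp only at hEH hRA hEA hbound hsur hmax
  refine ⟨E, ?_, hEH, ?_, ?_⟩
  · by_contra hc
    simp only [not_forall] at hc
    obtain ⟨g, hg, e, he, heE⟩ := hc
    obtain ⟨hgT, hgP⟩ := Setup.mem_ext.1 hg
    set S := (T \ P).filter (fun a => g a ∈ A) with hS
    set N := (T \ P) \ S with hN
    set A' := A ∪ N.image g with hA'
    set E' := E ∪ (C.new P T).image (fun e => e.map g) with hE'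
    have hPS : P ∪ S ⊆ T := union_subset hPT ((filter_subset _ _).trans sdiff_subset)
    have hTPS : T \ (P ∪ S) = N := by
      rw [hN, sdiff_sdiff_left, ← sup_eq_union]
    have hgA : ∀ b ∈ T \ P, g b ∈ A' := by
      intro b hb
      by_cases hbA : g b ∈ A
      · exact mem_union_left _ hbA
      · exact mem_union_right _ (mem_image_of_mem _
          (mem_sdiff.2 ⟨hb, fun h => hbA (mem_filter.1 h).2⟩))
    have hends : ∀ e ∈ E', ∀ a ∈ e, a ∈ A' := by
      intro z hz a ha
      rcases mem_union.1 hz with hz | hz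
      · exact mem_union_left _ (hEA z hz a ha)
      · obtain ⟨e', he', rfl⟩ := mem_image.1 hz
        obtain ⟨b, hb, rfl⟩ := Sym2.mem_map.1 ha
        have hbT := (Setup.mem_D.1 (Setup.mem_new.1 he').1).2 b hb
        by_cases hbP : b ∈ P
        · rw [hgP b hbP]
          exact mem_union_left _ (hRA (mem_image_of_mem _
            (mem_filter.2 ⟨hbP, e', he', hb⟩)))
        · exact hgA b (mem_sdiff.2 ⟨hbT, hbP⟩)
    have hsubnew : C.new (P ∪ S) T ⊆ C.new P T := Setup.new_anti subset_union_left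
    have hd : E.card + (C.new (P ∪ S) T).card ≤ E'.card := by
      have hinj : ((C.new (P ∪ S) T).image (fun e => e.map g)).card
          = (C.new (P ∪ S) T).card :=
        card_image_of_injOn fun e he e' he' => Setup.map_injOn hgT e (Setup.mem_new.1 he).1 e' (Setup.mem_new.1 he').1
      have hdis : Disjoint E ((C.new (P ∪ S) T).image (fun e => e.map g)) := by
        rw [disjoint_right]
        intro z hz hzE
        obtain ⟨e', he', rfl⟩ := mem_image.1 hz
        obtain ⟨heT, b, hb, hbPS⟩ := Setup.mem_new.1 he'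
        have hgb : g b ∈ A := hEA _ hzE _ (Sym2.mem_map.2 ⟨b, hb, rfl⟩)
        refine hbPS (mem_union_right _ (mem_filter.2 ⟨mem_sdiff.2 ⟨(Setup.mem_D.1 heT).2 b hb, ?_⟩, hgb⟩))
        exact fun hbP => hbPS (mem_union_left _ hbP)
      rw [← hinj, ← card_union_of_disjoint hdis]
      exact card_le_card (union_subset_union_right (image_subset_image hsubnew))
    have hlt : E.card < E'.card :=
      card_lt_card (ssubset_iff_of_subset subset_union_left |>.2
        ⟨e.map g, mem_union_right _ (mem_image_of_mem _ he), heE⟩)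
    have hA'card : A'.card ≤ A.card + N.card :=
      (card_union_le _ _).trans (Nat.add_le_add_left card_image_le _)
    have hfac : (C.n : ℝ) ^ N.card * x ^ (C.new (P ∪ S) T).card ≤ 1 := by
      have := hm (P ∪ S) (hWP.trans_subset subset_union_left) hPS
      rwa [hTPS] at this
    have hmem : (A', E') ∈ univ.filter good := by
      refine mem_filter.2 ⟨mem_univ _, union_subset hEH ?_, hRA.trans subset_union_left, hends, ?_, ?_⟩
      · intro z hz
        obtain ⟨e', he', rfl⟩ := mem_image.1 hz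
        exact (Setup.mem_emb.1 hgT).2.2 e' (Setup.mem_new.1 he').1
      · calc (C.n : ℝ) ^ A'.card * x ^ E'.card
            ≤ (C.n : ℝ) ^ (A.card + N.card) * x ^ (E.card + (C.new (P ∪ S) T).card) :=
              mul_le_mul (pow_le_pow_right₀ hn1 hA'card)
                (pow_le_pow_of_le_one hx0.le h.qe hd) (by positivity) (by positivity)
          _ = (C.n : ℝ) ^ A.card * x ^ E.card
              * ((C.n : ℝ) ^ N.card * x ^ (C.new (P ∪ S) T).card) := by
              rw [pow_add, pow_add]; ring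
          _ ≤ (C.n : ℝ) ^ (C.roots P T).card * 1 :=
              mul_le_mul hbound hfac (by positivity) (by positivity)
          _ = _ := mul_one _
      · have hE'le : E'.card ≤ E.card + (C.new P T).card :=
          (card_union_le _ _).trans (Nat.add_le_add_left card_image_le _)
        have hNlt : E.card + N.card < E'.card := by
          rcases Nat.eq_zero_or_pos N.card with hN0 | hN0
          · omega
          suffices N.card < (C.new (P ∪ S) T).card by omega
          by_contra hd'
          have hle : (Real.exp 1 * C.q) ^ N.card ≤ x ^ (C.new (P ∪ S) T).card :=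
            pow_le_pow_of_le_one hx0.le h.qe (not_lt.1 hd')
          have hgt : 1 < ((C.n : ℝ) * (Real.exp 1 * C.q)) ^ N.card :=
            one_lt_pow₀ (ec_gt h hR) hN0.ne'
          rw [mul_pow] at hgt
          have := mul_le_mul_of_nonneg_left hle (pow_nonneg hn0.le N.card)
          linarith
        show E'.card + (C.new P T).card * A'.card
          ≤ (C.new P T).card * (E'.card + (C.roots P T).card)
        nlinarith [Nat.mul_le_mul_left (C.new P T).card hA'card,
          Nat.mul_le_mul_left (C.new P T).card (Nat.succ_le_of_lt hNlt)]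
    have := hmax _ hmem
    simp only at this
    omega
  · have hone := h.hyp A E hEH hEA {1}
      (fun σ hσ => by rw [mem_singleton] at hσ; subst hσ; simp)
      (fun σ hσ τ hτ _ => by rw [mem_singleton.1 hσ, mem_singleton.1 hτ])
    simp only [card_singleton, Nat.cast_one] at hone
    have e1 : Real.exp E.card ≤ 2 * (C.n : ℝ) ^ (C.roots P T).card := by
      have hk : Real.exp E.card = Real.exp 1 ^ E.card := by
        rw [← Real.exp_nat_mul, mul_one]
      have := mul_le_mul_of_nonneg_left hone (Real.exp_pos (E.card : ℝ)).le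
      rw [mul_one] at this
      refine this.trans ?_
      rw [hk]
      calc Real.exp 1 ^ E.card * (2 * (C.n : ℝ) ^ A.card * C.q ^ E.card)
          = 2 * ((C.n : ℝ) ^ A.card * x ^ E.card) := by rw [hx, mul_pow]; ring
        _ ≤ _ := by linarith
    have e2 := Real.log_le_log (Real.exp_pos _) e1
    rw [Real.log_exp, Real.log_mul two_ne_zero (by positivity), Real.log_pow] at e2
    have : Real.log 2 ≤ 1 := by
      have := Real.log_le_sub_one_of_pos (show (0 : ℝ) < 2 by norm_num)
      linarith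
    rw [ll]
    linarith
  · intro hsmall
    have hone := hyp_lin h A E hEH hEA
    have hs' : (E.card : ℝ) + (C.new P T).card * A.card
        ≤ (C.new P T).card * ((E.card : ℝ) + (C.roots P T).card) := by exact_mod_cast hsur
    obtain ⟨hM, hl4, -⟩ := range_facts h hR
    have hl2 : Real.log 2 ≤ 1 := by linarith [Real.log_two_lt_d9]
    set r := ((C.new P T).card : ℝ) with hrdef
    have hr0 : 0 ≤ r := Nat.cast_nonneg _
    have h1 := mul_le_mul_of_nonneg_right hs' (show (0 : ℝ) ≤ ll C by linarith)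
    have h2 := mul_le_mul_of_nonneg_left hone hr0
    have h3 := mul_le_mul_of_nonneg_left hl2 hr0
    have h4 := mul_le_mul_of_nonneg_right hsmall (Nat.cast_nonneg (α := ℝ) E.card)
    have h6 : (E.card : ℝ) * ll C ≤ 2 * r * (1 + (C.roots P T).card * ll C) := by
      nlinarith [mul_nonneg hr0 (Nat.cast_nonneg (α := ℝ) E.card)]
    have h7 := mul_le_mul_of_nonneg_right h6 (show (0 : ℝ) ≤ mm C by linarith)
    have h8 := mul_le_mul_of_nonneg_right hsmall
      (show (0 : ℝ) ≤ 1 + (C.roots P T).card * ll C by positivity)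
    exact le_of_mul_le_mul_right (show (E.card : ℝ) * mm C * ll C
      ≤ (1 + (C.roots P T).card * ll C) * ll C by linarith) (by linarith)

/-- The core: the edges used by extensions and the images of the free vertices. -/
theorem core (h : C.Hyp) (hR : Range C) {W P T : Finset α} (hm : C.Margin W T) (hWP : W ⊂ P)
    (hPT : P ⊆ T) (φ : α → V) :
    ∃ (E : Finset (Sym2 V)) (S : Finset V) (ρ : ℝ),
      (∀ g ∈ C.ext P T φ, ∀ e ∈ C.new P T, e.map g ∈ E)
      ∧ (∀ g ∈ C.ext P T φ, ∀ a ∈ T \ P, g a ∈ S)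
      ∧ (∀ z ∈ S, 2 ≤ dg E z) ∧ E ⊆ C.EH
      ∧ ∑ z ∈ S, ((dg E z : ℝ) - 2) ≤ 2 * ρ
      ∧ (∀ z, (dg E z : ℝ) ≤ 2 * ρ + 2)
      ∧ ρ ≤ (C.roots P T).card + 1 + (1 + (C.roots P T).card * ll C) * mm C / ll C
      ∧ (2 * ((C.new P T).card : ℝ) * mm C ≤ ll C → ρ ≤ 2 * (C.roots P T).card + 2) := by
  classical
  obtain ⟨hM, hl4, -⟩ := range_facts h hR
  obtain ⟨E₁, hmem, hE₁, hcard, hsmall⟩ := cluster2 h hR hm hWP hPT (φ := φ)
  set E := (C.ext P T φ).biUnion fun g => (C.new P T).image fun e => e.map g with hE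
  have hEsub : E ⊆ E₁ := fun z hz => by
    obtain ⟨g, hg, hz⟩ := mem_biUnion.1 hz
    obtain ⟨e, he, rfl⟩ := mem_image.1 hz
    exact hmem g hg e he
  have hin : ∀ g ∈ C.ext P T φ, ∀ e ∈ C.new P T, e.map g ∈ E := fun g hg e he =>
    mem_biUnion.2 ⟨g, hg, mem_image_of_mem _ he⟩
  set RI := (C.roots P T).image φ with hRI
  set S := univ.filter fun z : V => z ∉ RI ∧ ∃ e ∈ E, z ∈ e with hS
  have hS2 : ∀ g ∈ C.ext P T φ, ∀ a ∈ T \ P, 2 ≤ dg E (g a) := by
    intro g hg a ha
    refine (deg_two h (ec_gt h hR) hm hWP hPT ha).trans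
      (card_le_card_of_injOn (fun e => e.map g) (fun e he => ?_) fun e he e' he' hee => ?_)
    · obtain ⟨he, hae⟩ := mem_filter.1 he
      exact mem_filter.2 ⟨hin g hg e he, Sym2.mem_map.2 ⟨a, hae, rfl⟩⟩
    · exact Setup.map_injOn (Setup.mem_ext.1 hg).1 e (Setup.mem_new.1 (mem_filter.1 he).1).1 e'
        (Setup.mem_new.1 (mem_filter.1 he').1).1 hee
  have hSimg : ∀ g ∈ C.ext P T φ, ∀ a ∈ T \ P, g a ∈ S := by
    intro g hg a ha
    obtain ⟨e, he⟩ := card_pos.1 (lt_of_lt_of_le two_pos (hS2 g hg a ha))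
    refine mem_filter.2 ⟨mem_univ _, fun hr => ?_, e, (mem_filter.1 he).1, (mem_filter.1 he).2⟩
    obtain ⟨w, hw, hwa⟩ := mem_image.1 hr
    obtain ⟨hgT, hgP⟩ := Setup.mem_ext.1 hg
    have hwP := (mem_filter.1 hw).1
    rw [← hgP w hwP] at hwa
    exact (mem_sdiff.1 ha).2
      ((Setup.mem_emb.1 hgT).2.1 w (hPT hwP) a (mem_sdiff.1 ha).1 hwa ▸ hwP)
  have hS2' : ∀ z ∈ S, 2 ≤ dg E z := by
    intro z hz
    obtain ⟨-, hzR, e, he, hze⟩ := mem_filter.1 hz
    obtain ⟨g, hg, himg⟩ := mem_biUnion.1 he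
    obtain ⟨e', he', rfl⟩ := mem_image.1 himg
    obtain ⟨b, hb, rfl⟩ := Sym2.mem_map.1 hze
    have hbT := (Setup.mem_D.1 (Setup.mem_new.1 he').1).2 b hb
    by_cases hbP : b ∈ P
    · refine absurd (mem_image.2 ⟨b, mem_filter.2 ⟨hbP, e', he', hb⟩, ?_⟩) hzR
      exact ((Setup.mem_ext.1 hg).2 b hbP).symm
    · exact hS2 g hg b (mem_sdiff.2 ⟨hbT, hbP⟩)
  have hnn : ∀ z ∈ S, (0 : ℝ) ≤ (dg E z : ℝ) - 2 := fun z hz => by
    have : (2 : ℝ) ≤ dg E z := by exact_mod_cast hS2' z hz
    linarith
  refine ⟨E, S, (E.card : ℝ) - S.card, hin, hSimg, hS2', hEsub.trans hE₁, ?_, ?_, ?_, ?_⟩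
  · rw [sum_sub_distrib, sum_const, nsmul_eq_mul, ← Nat.cast_sum]
    have : ((∑ z ∈ S, dg E z : ℕ) : ℝ) ≤ ((2 * E.card : ℕ) : ℝ) :=
      Nat.cast_le.2 (sum_dg_le E S)
    push_cast at this ⊢
    linarith
  · intro z
    have h1 : 2 * (S.card : ℝ) ≤ ∑ a ∈ S, (dg E a : ℝ) := by
      rw [mul_comm, ← nsmul_eq_mul]
      exact card_nsmul_le_sum _ _ _ fun a ha => by exact_mod_cast hS2' a ha
    by_cases hz : z ∈ S
    · have h2 := single_le_sum hnn hz
      rw [sum_sub_distrib, sum_const, nsmul_eq_mul] at h2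
      have : ((∑ z ∈ S, dg E z : ℕ) : ℝ) ≤ ((2 * E.card : ℕ) : ℝ) :=
        Nat.cast_le.2 (sum_dg_le E S)
      push_cast at this
      linarith
    · have : ((∑ a ∈ insert z S, dg E a : ℕ) : ℝ) ≤ ((2 * E.card : ℕ) : ℝ) :=
        Nat.cast_le.2 (sum_dg_le E (insert z S))
      rw [sum_insert hz] at this
      push_cast at this
      linarith
  all_goals
    have hone := hyp_lin h (RI ∪ S) E (hEsub.trans hE₁) (fun e he a ha => by
      by_cases haR : a ∈ RI
      · exact mem_union_left _ haR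
      · exact mem_union_right _ (mem_filter.2 ⟨mem_univ a, haR, e, he, ha⟩))
    have hA : ((RI ∪ S).card : ℝ) ≤ (C.roots P T).card + S.card := by
      exact_mod_cast (card_union_le _ _).trans (Nat.add_le_add_right card_image_le _)
    have hl2 : Real.log 2 ≤ 1 := by linarith [Real.log_two_lt_d9]
    have hEE : (E.card : ℝ) ≤ E₁.card := by exact_mod_cast card_le_card hEsub
    have hA' := mul_le_mul_of_nonneg_right hA (show (0 : ℝ) ≤ ll C by linarith)
    have hEM := mul_le_mul_of_nonneg_right hEE (show (0 : ℝ) ≤ mm C by linarith)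
    have hE0 : (0 : ℝ) ≤ E.card := Nat.cast_nonneg _
  · have hc' := mul_le_mul_of_nonneg_right hcard (show (0 : ℝ) ≤ mm C by linarith)
    refine le_of_mul_le_mul_right ?_ (show (0 : ℝ) < ll C by linarith)
    rw [add_mul, div_mul_cancel₀ _ (show ll C ≠ 0 by linarith)]
    linarith
  · intro hs
    have hc' := hsmall hs
    refine le_of_mul_le_mul_right ?_ (show (0 : ℝ) < ll C by linarith)
    linarith

end Vale.Agent.P064.Sparse
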