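import Mathlib

/-! Cutting a set in which every point has at most two neighbours into short pieces. -/

namespace Vale.Agent.P064.Sparse

open Finset

variable {α : Type*} [DecidableEq α]

/-- The outside neighbours of `S` within `U`. -/
def border (r : α → α → Prop) [DecidableRel r] (U S : Finset α) : Finset α :=
  (U \ S).filter fun b => ∃ a ∈ S, r a b

/-- Few marks cut such a set into pieces of at most `L` points, with no relation across pieces. -/
lemma exists_partition (r : α → α → Prop) [DecidableRel r] (hsymm : ∀ a b, r a b → r b a)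
    {L : ℕ} (hL : 1 ≤ L) :
    ∀ k (U : Finset α), U.card = k → (∀ a ∈ U, (U.filter fun b => r a b).card ≤ 2) →
      ∃ (M : Finset α) (pc : α → Finset α), M ⊆ U ∧ L * M.card ≤ 2 * U.card ∧
        ∀ a ∈ U, a ∉ M → a ∈ pc a ∧ pc a ⊆ U \ M ∧ (pc a).card ≤ L ∧
          ∀ b ∈ pc a, ∀ c ∈ U \ M, r b c → c ∈ pc a := by
  intro k
  induction k using Nat.strong_induction_on with
  | _ k ih =>
  intro U hk hdeg
  rcases U.eq_empty_or_nonempty with rfl | ⟨a0, ha0⟩
  · exact ⟨∅, fun _ => ∅, subset_rfl, by simp, fun a ha => absurd ha (notMem_empty a)⟩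
  set good := fun S : Finset α => S.Nonempty ∧ S.card ≤ L ∧ (border r U S).card ≤ 2 with hgood
  have hne : (U.powerset.filter good).Nonempty := by
    refine ⟨{a0}, mem_filter.2 ⟨mem_powerset.2 (singleton_subset_iff.2 ha0),
      singleton_nonempty _, by simpa using hL, le_trans (card_le_card fun b hb => ?_) (hdeg a0 ha0)⟩⟩
    obtain ⟨hb, a, ha, hab⟩ := mem_filter.1 hb
    rw [mem_singleton] at ha
    exact mem_filter.2 ⟨(mem_sdiff.1 hb).1, ha ▸ hab⟩
  obtain ⟨S, hS, hmax⟩ := exists_max_image (U.powerset.filter good) card hne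
  obtain ⟨hSU, hSne, hSL, hSb⟩ := mem_filter.1 hS
  rw [mem_powerset] at hSU
  set D := border r U S with hD
  have hDU : D ⊆ U \ S := filter_subset _ _
  have hfull : D.Nonempty → S.card = L := by
    rintro ⟨b, hb⟩
    by_contra hc
    obtain ⟨hbU, a, ha, hab⟩ := mem_filter.1 hb
    obtain ⟨hbU, hbS⟩ := mem_sdiff.1 hbU
    have hins : insert b S ∈ U.powerset.filter good := by
      refine mem_filter.2 ⟨mem_powerset.2 (insert_subset hbU hSU), insert_nonempty _ _,
        by rw [card_insert_of_notMem hbS]; omega, ?_⟩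
      have hone : ((U.filter fun c => r b c).erase a).card ≤ 1 := by
        have hmem : a ∈ U.filter fun c => r b c := mem_filter.2 ⟨hSU ha, hsymm a b hab⟩
        have hd : (U.filter fun c => r b c).card ≤ 2 := by convert hdeg b hbU
        rw [card_erase_of_mem hmem]
        omega
      have hsub : border r U (insert b S) ⊆ D.erase b ∪ (U.filter fun c => r b c).erase a := by
        intro c hc
        obtain ⟨hcUS, a', ha', hac⟩ := mem_filter.1 hc
        obtain ⟨hcin, hcS⟩ := mem_sdiff.1 hcUS
        rw [mem_insert, not_or] at hcS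
        rcases mem_insert.1 ha' with rfl | ha'
        · exact mem_union_right _ (mem_erase.2 ⟨fun h => hcS.2 (h ▸ ha),
            mem_filter.2 ⟨hcin, hac⟩⟩)
        · exact mem_union_left _ (mem_erase.2 ⟨hcS.1,
            mem_filter.2 ⟨mem_sdiff.2 ⟨hcin, hcS.2⟩, a', ha', hac⟩⟩)
      refine le_trans ((card_le_card hsub).trans (card_union_le _ _)) ?_
      rw [card_erase_of_mem hb]
      have := card_pos.2 ⟨b, hb⟩
      omega
    have := hmax _ hins
    simp only [card_insert_of_notMem hbS] at this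
    omega
  have hlt : (U \ (S ∪ D)).card < k := by
    rw [← hk]
    refine card_lt_card ((ssubset_iff_of_subset sdiff_subset).2 ?_)
    obtain ⟨a, ha⟩ := hSne
    exact ⟨a, hSU ha, fun h => (mem_sdiff.1 h).2 (mem_union_left _ ha)⟩
  obtain ⟨M, pc, hMU, hMcard, hpc⟩ := ih _ hlt (U \ (S ∪ D)) rfl fun a ha =>
    le_trans (card_le_card (filter_subset_filter _ sdiff_subset)) (hdeg a (mem_sdiff.1 ha).1)
  refine ⟨D ∪ M, fun a => if a ∈ S then S else pc a,
    union_subset (hDU.trans sdiff_subset) (hMU.trans sdiff_subset), ?_, fun a haU haM => ?_⟩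
  · have hsum : (U \ (S ∪ D)).card + (S.card + D.card) = U.card := by
      rw [← card_union_of_disjoint (disjoint_left.2 fun x hx hx' => (mem_sdiff.1 (hDU hx')).2 hx),
        card_sdiff_add_card_eq_card (union_subset hSU (hDU.trans sdiff_subset))]
    refine (Nat.mul_le_mul_left L (card_union_le D M)).trans ?_
    rcases D.eq_empty_or_nonempty with h0 | h0
    · rw [h0, card_empty, zero_add] at *
      omega
    · have := hfull h0
      have := Nat.mul_le_mul_left L hSb
      rw [Nat.mul_add]
      omega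
  · rw [mem_union, not_or] at haM
    by_cases haS : a ∈ S
    · simp only [haS, if_true]
      refine ⟨trivial, fun b hb => mem_sdiff.2 ⟨hSU hb, fun h => ?_⟩, hSL, fun b hb c hc hbc => ?_⟩
      · rcases mem_union.1 h with h | h
        · exact (mem_sdiff.1 (hDU h)).2 hb
        · exact (mem_sdiff.1 (hMU h)).2 (mem_union_left _ hb)
      · obtain ⟨hcU, hcM⟩ := mem_sdiff.1 hc
        by_contra hcS
        exact hcM (mem_union_left _ (mem_filter.2 ⟨mem_sdiff.2 ⟨hcU, hcS⟩, b, hb, hbc⟩))
    · simp only [haS, if_false]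
      have haU' : a ∈ U \ (S ∪ D) := mem_sdiff.2 ⟨haU, fun h =>
        (mem_union.1 h).elim haS haM.1⟩
      obtain ⟨h1, h2, h3, h4⟩ := hpc a haU' haM.2
      refine ⟨h1, fun b hb => ?_, h3, fun b hb c hc hbc => ?_⟩
      · obtain ⟨hb1, hb2⟩ := mem_sdiff.1 (h2 hb)
        obtain ⟨hbU, hbSD⟩ := mem_sdiff.1 hb1
        exact mem_sdiff.2 ⟨hbU, fun h => (mem_union.1 h).elim
          (fun h => hbSD (mem_union_right _ h)) hb2⟩
      · obtain ⟨hcU, hcM⟩ := mem_sdiff.1 hc
        obtain ⟨hbU, hbSD⟩ := mem_sdiff.1 (mem_sdiff.1 (h2 hb)).1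
        have hcS : c ∉ S := fun h => hbSD (mem_union_right _
          (mem_filter.2 ⟨mem_sdiff.2 ⟨hbU, fun h' => hbSD (mem_union_left _ h')⟩,
            c, h, hsymm b c hbc⟩))
        refine h4 b hb c (mem_sdiff.2 ⟨mem_sdiff.2 ⟨hcU, fun h => ?_⟩,
          fun h => hcM (mem_union_right _ h)⟩) hbc
        rcases mem_union.1 h with h | h
        · exact hcS h
        · exact hcM (mem_union_left _ h)

end Vale.Agent.P064.Sparse
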